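import Mathlib

/-!
Approximate groups in a real inner product space: counting values of linear forms in intervals.
-/

open Finset
open scoped Pointwise RealInnerProductSpace

namespace Vale.Agent.Doubling.AllDim

set_option linter.unusedSectionVars false

variable {E : Type*} [NormedAddCommGroup E] [InnerProductSpace ℝ E] [DecidableEq E]

/-- A symmetric set covered, when doubled, by few translates of itself. -/
structure AG (B : Finset E) (Γ : ℝ) : Prop where
  two_le : 2 ≤ Γ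
  neg_eq : -B = B
  zero_mem : (0 : E) ∈ B
  cover : ∃ T : Finset E, B + B ⊆ B + T ∧ (T.card : ℝ) ≤ Γ
  log_le : 1 + Real.log B.card ≤ Γ

/-- The number of values of `⟪u, ·⟫` on `B + B` in `[0, l]`. -/
noncomputable def cnt (B : Finset E) (u : E) (l : ℝ) : ℕ :=
  (((B + B).image fun x => ⟪u, x⟫).filter fun v => 0 ≤ v ∧ v ≤ l).card

/-- The total of `cnt` over a family of linear forms. -/
noncomputable def wt (B : Finset E) (R : Finset E) (z : E) : ℕ :=
  ∑ u ∈ R, cnt B u |⟪u, z⟫|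

variable {B : Finset E} {Γ : ℝ}

theorem AG.one_le (h : AG B Γ) : 1 ≤ Γ := by linarith [h.two_le]

theorem AG.pos (h : AG B Γ) : 0 < Γ := by linarith [h.two_le]

theorem AG.two_pow_le (h : AG B Γ) (k : ℕ) : (2 : ℝ) ^ k ≤ Γ ^ k :=
  pow_le_pow_left₀ (by norm_num) h.two_le k

theorem AG.mono_pow (h : AG B Γ) {a b : ℕ} (hab : a ≤ b) : Γ ^ a ≤ Γ ^ b :=
  pow_le_pow_right₀ h.one_le hab

theorem AG.card_pos (h : AG B Γ) : 0 < B.card := Finset.card_pos.2 ⟨0, h.zero_mem⟩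

theorem AG.exists_cover (h : AG B Γ) (m : ℕ) :
    ∃ T : Finset E, (m + 1) • B ⊆ B + T ∧ (T.card : ℝ) ≤ Γ ^ m := by
  classical
  induction m with
  | zero => exact ⟨{0}, fun x hx => mem_add.2 ⟨x, by simpa using hx, 0, mem_singleton_self _, add_zero _⟩, by simp⟩
  | succ m ih =>
    obtain ⟨T, hT, hTc⟩ := ih
    obtain ⟨T₁, hT₁, hT₁c⟩ := h.cover
    have hT₁' : B + B ⊆ B + T₁ := hT₁
    refine ⟨T₁ + T, ?_, ?_⟩
    · rw [succ_nsmul (n := m + 1)]
      calc (m + 1) • B + B ⊆ B + T + B := add_subset_add_right hT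
        _ = B + B + T := by rw [add_right_comm]
        _ ⊆ B + T₁ + T := add_subset_add_right hT₁'
        _ = B + (T₁ + T) := add_assoc _ _ _
    · calc ((T₁ + T).card : ℝ) ≤ (T₁.card : ℝ) * T.card := by exact_mod_cast card_add_le
        _ ≤ Γ * Γ ^ m := mul_le_mul hT₁c hTc (Nat.cast_nonneg _) h.pos.le
        _ = Γ ^ (m + 1) := by ring

theorem AG.zero_mem_nsmul (h : AG B Γ) (m : ℕ) : (0 : E) ∈ m • B := by
  induction m with
  | zero => simp
  | succ m ih => rw [succ_nsmul]; simpa using add_mem_add ih h.zero_mem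

theorem AG.nsmul_subset (h : AG B Γ) {m n : ℕ} (hmn : m ≤ n) : m • B ⊆ n • B := by
  obtain ⟨k, rfl⟩ := Nat.exists_eq_add_of_le hmn
  intro x hx
  rw [add_nsmul]
  simpa using add_mem_add hx (h.zero_mem_nsmul k)

theorem AG.card_nsmul_le (h : AG B Γ) (m : ℕ) :
    (((m + 1) • B).card : ℝ) ≤ Γ ^ m * B.card := by
  obtain ⟨T, hT, hTc⟩ := h.exists_cover m
  calc (((m + 1) • B).card : ℝ) ≤ ((B + T).card : ℝ) := by exact_mod_cast card_le_card hT
    _ ≤ (B.card : ℝ) * T.card := by exact_mod_cast card_add_le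
    _ ≤ B.card * Γ ^ m := mul_le_mul_of_nonneg_left hTc (Nat.cast_nonneg _)
    _ = _ := mul_comm _ _

theorem AG.log_nsmul_le (h : AG B Γ) (m : ℕ) :
    1 + Real.log ((m + 1) • B).card ≤ Γ ^ (m + 1) := by
  have hpos : (0 : ℝ) < (((m + 1) • B).card : ℝ) :=
    Nat.cast_pos.2 (Finset.card_pos.2 ⟨0, h.zero_mem_nsmul _⟩)
  have h1 := Real.log_le_log hpos (h.card_nsmul_le m)
  rw [Real.log_mul (pow_pos h.pos m).ne' (by exact_mod_cast h.card_pos.ne'), Real.log_pow] at h1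
  have h2 : Real.log Γ ≤ Γ := by linarith [Real.log_le_sub_one_of_pos h.pos]
  have h3 : (m : ℝ) * Real.log Γ ≤ m * Γ := mul_le_mul_of_nonneg_left h2 (Nat.cast_nonneg _)
  have h4 : ((m : ℝ) + 1) ≤ Γ ^ m := by
    refine le_trans ?_ (h.two_pow_le m)
    exact_mod_cast Nat.lt_two_pow_self
  have h5 := h.log_le
  calc 1 + Real.log ((m + 1) • B).card ≤ ((m : ℝ) + 1) * Γ := by linarith
    _ ≤ Γ ^ m * Γ := mul_le_mul_of_nonneg_right h4 h.pos.le
    _ = Γ ^ (m + 1) := by ring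

/-- Values of a form on `(m+1) • B` in an interval. -/
theorem AG.interval (h : AG B Γ) (m : ℕ) (u : E) (a l : ℝ) :
    (((((m + 1) • B).image fun x => ⟪u, x⟫).filter fun v => a ≤ v ∧ v ≤ a + l).card : ℝ) ≤
      Γ ^ m * cnt B u l := by
  classical
  obtain ⟨T, hT, hTc⟩ := h.exists_cover m
  let V : E → Finset ℝ := fun t =>
    (B.image fun x => ⟪u, x + t⟫).filter fun v => a ≤ v ∧ v ≤ a + l
  have hV : ∀ t, (V t).card ≤ cnt B u l := by
    intro t
    rcases (V t).eq_empty_or_nonempty with h0 | hne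
    · simp [h0]
    unfold cnt
    refine card_le_card_of_injOn (fun v => v - (V t).min' hne) (fun v hv => ?_)
      (fun v _ w _ e => sub_left_injective e)
    have hm := (V t).min'_mem hne
    have hle := (V t).min'_le v hv
    simp only [V, mem_filter, mem_image, coe_filter, Set.mem_ofPred_eq] at hv hm ⊢
    obtain ⟨⟨x, hx, hxv⟩, hv1, hv2⟩ := hv
    obtain ⟨⟨y, hy, hyv⟩, hy1, hy2⟩ := hm
    refine ⟨⟨x + -y, ?_, ?_⟩, by simpa [V] using sub_nonneg.2 hle, by linarith⟩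
    · convert add_mem_add hx (h.neg_eq ▸ neg_mem_neg hy : -y ∈ B)
    · rw [← hxv, ← hyv]; simp [inner_add_right, inner_neg_right]; ring
  have hsub : (((m + 1) • B).image fun x => ⟪u, x⟫).filter (fun v => a ≤ v ∧ v ≤ a + l) ⊆
      T.biUnion V := by
    intro v hv
    simp only [mem_filter, mem_image] at hv
    obtain ⟨⟨x, hx, rfl⟩, hv⟩ := hv
    obtain ⟨b, hb, t, ht, rfl⟩ := mem_add.1 (hT hx)
    exact mem_biUnion.2 ⟨t, ht, mem_filter.2 ⟨mem_image.2 ⟨b, hb, rfl⟩, hv⟩⟩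
  calc _ ≤ ((T.card * cnt B u l : ℕ) : ℝ) := by
          exact_mod_cast (card_le_card hsub).trans (card_biUnion_le_card_mul _ _ _ fun t _ => hV t)
    _ ≤ _ := by push_cast; exact mul_le_mul_of_nonneg_right hTc (Nat.cast_nonneg _)

theorem cnt_mono (u : E) {a b : ℝ} (hab : a ≤ b) : cnt B u a ≤ cnt B u b :=
  card_le_card (monotone_filter_right _ fun _ _ hv => ⟨hv.1, hv.2.trans hab⟩)

theorem AG.one_le_cnt (h : AG B Γ) (u : E) {a : ℝ} (ha : 0 ≤ a) : 1 ≤ cnt B u a := by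
  classical
  refine Finset.card_pos.2 ⟨0, mem_filter.2 ⟨mem_image.2 ⟨0, ?_, inner_zero_right _⟩, le_rfl, ha⟩⟩
  simpa using add_mem_add h.zero_mem h.zero_mem

theorem AG.cnt_zero (h : AG B Γ) (u : E) : cnt B u 0 = 1 := by
  classical
  refine le_antisymm (card_le_one.2 fun v hv w hw => ?_) (h.one_le_cnt u le_rfl)
  simp only [mem_filter] at hv hw
  linarith

theorem AG.cnt_add (h : AG B Γ) (u : E) (a b : ℝ) :
    (cnt B u (a + b) : ℝ) ≤ cnt B u a + Γ * cnt B u b := by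
  classical
  have h1 := h.interval 1 u a b
  rw [pow_one, two_nsmul] at h1
  have hsub : ((B + B).image fun x => ⟪u, x⟫).filter (fun v => 0 ≤ v ∧ v ≤ a + b) ⊆
      ((B + B).image fun x => ⟪u, x⟫).filter (fun v => 0 ≤ v ∧ v ≤ a) ∪
      ((B + B).image fun x => ⟪u, x⟫).filter (fun v => a ≤ v ∧ v ≤ a + b) := by
    intro v hv
    simp only [mem_filter, mem_union] at hv ⊢
    rcases le_total v a with h' | h'
    · exact Or.inl ⟨hv.1, hv.2.1, h'⟩
    · exact Or.inr ⟨hv.1, h', hv.2.2⟩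
  have := Nat.cast_le (α := ℝ).2 ((card_le_card hsub).trans (card_union_le _ _))
  push_cast at this
  unfold cnt at *
  linarith

theorem AG.cnt_sum (h : AG B Γ) (u : E) :
    ∀ (k : ℕ) (a : Fin k → ℝ), (cnt B u (∑ i, a i) : ℝ) ≤ Γ ^ k * (1 + ∑ i, (cnt B u (a i) : ℝ)) := by
  intro k
  induction k with
  | zero => intro a; simp [h.cnt_zero u]
  | succ k ih =>
    intro a
    rw [Fin.sum_univ_succ, Fin.sum_univ_succ]
    have h1 := h.cnt_add u (a 0) (∑ i : Fin k, a i.succ)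
    have h2 := mul_le_mul_of_nonneg_left (ih fun i => a i.succ) h.pos.le
    have h3 : (cnt B u (a 0) : ℝ) ≤ Γ ^ (k + 1) * cnt B u (a 0) :=
      le_mul_of_one_le_left (Nat.cast_nonneg _) (one_le_pow₀ h.one_le)
    rw [← mul_assoc, ← pow_succ'] at h2
    linarith

theorem AG.cnt_le (h : AG B Γ) (u : E) (a : ℝ) :
    (cnt B u a : ℝ) ≤ Γ * (B.image fun x => ⟪u, x⟫).card := by
  classical
  obtain ⟨T, hT, hTc⟩ := h.cover
  have hT' : B + B ⊆ B + T := hT
  have h1 : ((B + B).image fun x => ⟪u, x⟫) ⊆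
      T.biUnion fun t => (B.image fun x => ⟪u, x⟫).image (· + ⟪u, t⟫) := by
    intro v hv
    obtain ⟨x, hx, rfl⟩ := mem_image.1 hv
    obtain ⟨b, hb, t, ht, rfl⟩ := mem_add.1 (hT' hx)
    exact mem_biUnion.2 ⟨t, ht, mem_image.2 ⟨_, mem_image.2 ⟨b, hb, rfl⟩, (inner_add_right _ _ _).symm⟩⟩
  calc (cnt B u a : ℝ) ≤ ((T.card * (B.image fun x => ⟪u, x⟫).card : ℕ) : ℝ) := by
        exact_mod_cast (card_filter_le _ _).trans ((card_le_card h1).trans
          (card_biUnion_le_card_mul _ _ _ fun t _ => card_image_le))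
    _ ≤ _ := by push_cast; exact mul_le_mul_of_nonneg_right hTc (Nat.cast_nonneg _)

theorem AG.card_le_wt (h : AG B Γ) (R : Finset E) (z : E) : R.card ≤ wt B R z := by
  rw [card_eq_sum_ones]
  exact sum_le_sum fun u _ => h.one_le_cnt u (abs_nonneg _)

theorem AG.wt_zero (h : AG B Γ) (R : Finset E) : wt B R 0 = R.card := by
  simp [wt, h.cnt_zero]

theorem AG.wt_add (h : AG B Γ) (R : Finset E) (x y : E) :
    (wt B R (x + y) : ℝ) ≤ wt B R x + Γ * wt B R y := by
  simp only [wt, Nat.cast_sum, mul_sum, ← sum_add_distrib]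
  refine sum_le_sum fun u _ => le_trans (Nat.cast_le.2 (cnt_mono u ?_)) (h.cnt_add u _ _)
  rw [inner_add_right]
  exact abs_add_le _ _

theorem wt_neg (R : Finset E) (z : E) : wt B R (-z) = wt B R z := by
  simp [wt, inner_neg_right]

theorem AG.wt_sub (h : AG B Γ) (R : Finset E) (x y : E) :
    (wt B R (x - y) : ℝ) ≤ wt B R x + Γ * wt B R y := by
  rw [sub_eq_add_neg, ← wt_neg R y]
  exact h.wt_add R x (-y)

theorem AG.wt_le (h : AG B Γ) (R : Finset E) (r : ℕ)
    (hr : ∀ u ∈ R, (B.image fun x => ⟪u, x⟫).card ≤ r) (z : E) :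
    (wt B R z : ℝ) ≤ R.card * (Γ * r) := by
  rw [wt, Nat.cast_sum, ← nsmul_eq_mul, ← sum_const]
  exact sum_le_sum fun u hu => (h.cnt_le u _).trans
    (mul_le_mul_of_nonneg_left (Nat.cast_le.2 (hr u hu)) h.pos.le)

end Vale.Agent.Doubling.AllDim
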