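import Vale.Agent.Doubling.AllDim.Key

/-!
Induction on the dimension: a spanning set of forms of small image has few elements, and the sum of
reciprocals of image sizes over an approximate group is small.
-/

open Finset
open scoped Pointwise RealInnerProductSpace

namespace Vale.Agent.Doubling.AllDim

set_option linter.unusedSectionVars false

/-- The bound proved by induction on the dimension. -/
def Count (d C : ℕ) : Prop :=
  ∀ (E : Type) [NormedAddCommGroup E] [InnerProductSpace ℝ E] [FiniteDimensional ℝ E] [DecidableEq E],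
    Module.finrank ℝ E = d → ∀ (B R : Finset E) (Γ : ℝ) (r : ℕ), AG B Γ → R ⊆ B →
      (∀ u ∈ R, u ≠ 0) → (∀ u ∈ R, ∀ v ∈ R, ∀ c : ℝ, v = c • u → v = u) →
      (∀ u ∈ R, (B.image fun x => ⟪u, x⟫).card ≤ r) → Submodule.span ℝ (R : Set E) = ⊤ →
      (R.card : ℝ) * B.card ≤ Γ ^ C * (r : ℝ) ^ d ∨
        (4 ≤ d ∧ (R.card : ℝ) ^ 2 ≤ Γ ^ C * (r : ℝ) ^ (d - 1))

/-- What the count gives for forms spanning a subspace. -/
theorem descend {E : Type} [NormedAddCommGroup E] [InnerProductSpace ℝ E] [FiniteDimensional ℝ E]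
    [DecidableEq E] {B : Finset E} {Γ : ℝ} (h : AG B Γ) (R : Finset E) (r : ℕ) (hRB : R ⊆ B)
    (hR0 : ∀ u ∈ R, u ≠ 0) (hRi : ∀ u ∈ R, ∀ v ∈ R, ∀ c : ℝ, v = c • u → v = u)
    (hr : ∀ u ∈ R, (B.image fun x => ⟪u, x⟫).card ≤ r) (i C : ℕ)
    (hi : Module.finrank ℝ (Submodule.span ℝ (R : Set E)) = i) (hC : Count i C) :
    ∃ N : ℕ, R.card ≤ N ∧ N ≤ B.card ∧
      (∀ X : Finset E, X ⊆ 2 • B → (∀ x ∈ X, x ∈ Submodule.span ℝ (R : Set E)) → (X.card : ℝ) ≤ Γ * N) ∧
      (∀ Y : Finset E, (∀ x ∈ 2 • B, x ∈ (Submodule.span ℝ (R : Set E))ᗮ → x ∈ Y) →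
        B.card ≤ N * Y.card) ∧
      ((R.card : ℝ) * N ≤ Γ ^ C * (r : ℝ) ^ i ∨
        (4 ≤ i ∧ (R.card : ℝ) ^ 2 ≤ Γ ^ C * (r : ℝ) ^ (i - 1))) := by
  classical
  set S := Submodule.span ℝ (R : Set E) with hS
  set π := S.orthogonalProjectionOnto with hπ
  set B₁ : Finset S := B.image π with hB₁
  set R₁ : Finset S := R.image π with hR₁
  have hself : ∀ u ∈ S, ((π u : S) : E) = u := fun u hu =>
    congrArg Subtype.val (Submodule.orthogonalProjectionOnto_mem_subspace_eq_self (⟨u, hu⟩ : S))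
  have hmemS : ∀ u ∈ R, u ∈ S := fun u hu => Submodule.subset_span hu
  have hinj : Set.InjOn π R := fun a ha b hb e => by
    rw [← hself a (hmemS a ha), ← hself b (hmemS b hb), e]
  have hcardR : R₁.card = R.card := card_image_of_injOn hinj
  have hAG : AG B₁ Γ := by
    refine ⟨h.two_le, ?_, mem_image.2 ⟨0, h.zero_mem, map_zero _⟩, ?_, le_trans ?_ h.log_le⟩
    · ext x
      simp only [hB₁, Finset.mem_neg, mem_image]
      constructor
      · rintro ⟨y, ⟨b, hb, rfl⟩, rfl⟩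
        exact ⟨-b, by rw [← h.neg_eq]; exact neg_mem_neg hb, map_neg _ _⟩
      · rintro ⟨b, hb, rfl⟩
        exact ⟨π (-b), ⟨-b, by rw [← h.neg_eq]; exact neg_mem_neg hb, rfl⟩, by rw [map_neg, neg_neg]⟩
    · obtain ⟨T, hT, hTc⟩ := h.cover
      refine ⟨T.image π, ?_, le_trans (Nat.cast_le.2 card_image_le) hTc⟩
      rw [hB₁, ← image_add π, ← image_add π]
      exact image_subset_image hT
    · have := Real.log_le_log (Nat.cast_pos.2 (Finset.card_pos.2 ⟨π 0, mem_image_of_mem π h.zero_mem⟩))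
        (Nat.cast_le.2 card_image_le : (B₁.card : ℝ) ≤ B.card)
      linarith
  have himg : ∀ u ∈ R, (B₁.image fun x => ⟪π u, x⟫) = B.image fun x => ⟪u, x⟫ := by
    intro u hu
    rw [hB₁, image_image]
    refine image_congr fun x _ => ?_
    show ⟪((π u : S) : E), ((π x : S) : E)⟫ = ⟪u, x⟫
    rw [hself u (hmemS u hu)]
    have h0 : ⟪u, x - ((π x : S) : E)⟫ = 0 :=
      (Submodule.mem_orthogonal _ _).1 (S.sub_starProjection_mem_orthogonal x) u (hmemS u hu)
    rw [inner_sub_right] at h0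
    linarith
  have hspan : Submodule.span ℝ (R₁ : Set S) = ⊤ := by
    refine Submodule.map_injective_of_injective S.injective_subtype ?_
    rw [Submodule.map_span, Submodule.map_subtype_top, hR₁, coe_image, Set.image_image]
    have : (fun x => S.subtype (π x)) '' (R : Set E) = (R : Set E) := by
      conv_rhs => rw [← Set.image_id (R : Set E)]
      exact Set.image_congr fun u hu => hself u (hmemS u hu)
    rw [this]
  have hres := hC S hi B₁ R₁ Γ r hAG (image_subset_image hRB)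
    (fun v hv => by
      obtain ⟨u, hu, rfl⟩ := mem_image.1 hv
      intro h0
      exact hR0 u hu (by rw [← hself u (hmemS u hu), h0]; rfl))
    (fun a ha b hb c e => by
      obtain ⟨u, hu, rfl⟩ := mem_image.1 ha
      obtain ⟨v, hv, rfl⟩ := mem_image.1 hb
      have e' := congrArg Subtype.val e
      rw [Submodule.coe_smul, hself u (hmemS u hu), hself v (hmemS v hv)] at e'
      rw [hRi u hu v hv c e'])
    (fun a ha => by
      obtain ⟨u, hu, rfl⟩ := mem_image.1 ha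
      rw [himg u hu]; exact hr u hu)
    hspan
  rw [hcardR] at hres
  refine ⟨B₁.card, hcardR ▸ card_le_card (image_subset_image hRB), card_image_le, ?_, ?_, hres⟩
  · intro X hX hXS
    have h1 : X.card ≤ ((2 • B).image π).card :=
      card_le_card_of_injOn π (fun x hx => mem_image_of_mem _ (hX hx)) fun a ha b hb e => by
        rw [← hself a (hXS a ha), ← hself b (hXS b hb), e]
    rw [two_nsmul, image_add π] at h1
    obtain ⟨T, hT, hTc⟩ := hAG.cover
    calc (X.card : ℝ) ≤ ((B₁.card * T.card : ℕ) : ℝ) :=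
          Nat.cast_le.2 (h1.trans ((card_le_card hT).trans card_add_le))
      _ ≤ _ := by push_cast; rw [mul_comm Γ]; exact mul_le_mul_of_nonneg_left hTc (Nat.cast_nonneg _)
  · intro Y hY
    rw [mul_comm]
    refine card_le_mul_card_image B Y.card fun b hb => ?_
    obtain ⟨x₀, hx₀, rfl⟩ := mem_image.1 hb
    refine card_le_card_of_injOn (fun x => x - x₀) (fun x hx => ?_) (fun a _ c _ e => sub_left_injective e)
    simp only [coe_filter, Set.mem_ofPred_eq] at hx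
    refine hY _ ?_ ?_
    · show x - x₀ ∈ 2 • B
      rw [two_nsmul, sub_eq_add_neg]
      exact add_mem_add hx.1 (by rw [← h.neg_eq]; exact neg_mem_neg hx₀)
    · rw [← Submodule.ker_orthogonalProjectionOnto, LinearMap.mem_ker]
      show π (x - x₀) = 0
      rw [map_sub, hx.2, sub_self]

theorem card_le_one_of_finrank {E : Type} [NormedAddCommGroup E] [InnerProductSpace ℝ E]
    [FiniteDimensional ℝ E] (R : Finset E) (hR0 : ∀ u ∈ R, u ≠ 0)
    (hRi : ∀ u ∈ R, ∀ v ∈ R, ∀ c : ℝ, v = c • u → v = u)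
    (h1 : Module.finrank ℝ (Submodule.span ℝ (R : Set E)) ≤ 1) : R.card ≤ 1 := by
  refine card_le_one.2 fun u hu v hv => ?_
  have hle : Submodule.span ℝ ({u} : Set E) ≤ Submodule.span ℝ (R : Set E) :=
    Submodule.span_mono (Set.singleton_subset_iff.2 hu)
  have heq := Submodule.eq_of_le_of_finrank_le hle (by rw [finrank_span_singleton (hR0 u hu)]; exact h1)
  obtain ⟨c, hc⟩ := Submodule.mem_span_singleton.1
    (heq.symm ▸ Submodule.subset_span hv : v ∈ Submodule.span ℝ ({u} : Set E))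
  exact (hRi u hu v hv c hc.symm).symm

/-- The arithmetic when the caught forms are few. -/
theorem few_caught (Γ μ s δ M r : ℝ) (C₁ C₂ C d : ℕ) (hd : 4 ≤ d) (hΓ : 1 ≤ Γ) (hμ : 1 ≤ μ)
    (hs : 0 ≤ s) (hM : 0 ≤ M) (hr : 0 ≤ r) (hC : 4 * (C₁ + C₂) ≤ C)
    (h1 : s ≤ Γ ^ C₁ * μ * δ) (h2 : δ ^ 2 ≤ Γ ^ C₂ * r ^ (d - 2))
    (h3 : μ ^ (d - 1) * M ≤ Γ ^ C₁ * r ^ d) :
    s * M ≤ Γ ^ C * r ^ d ∨ (4 ≤ d ∧ s ^ 2 ≤ Γ ^ C * r ^ (d - 1)) := by
  have hs2 : s ^ 2 ≤ Γ ^ (2 * C₁ + C₂) * μ ^ 2 * r ^ (d - 2) :=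
    calc s ^ 2 ≤ (Γ ^ C₁ * μ * δ) ^ 2 := pow_le_pow_left₀ hs h1 2
      _ = Γ ^ (2 * C₁) * μ ^ 2 * δ ^ 2 := by ring
      _ ≤ Γ ^ (2 * C₁) * μ ^ 2 * (Γ ^ C₂ * r ^ (d - 2)) := mul_le_mul_of_nonneg_left h2 (by positivity)
      _ = _ := by ring
  rcases le_total (μ ^ 2) r with hsm | hlg
  · refine Or.inr ⟨hd, hs2.trans ?_⟩
    calc Γ ^ (2 * C₁ + C₂) * μ ^ 2 * r ^ (d - 2) ≤ Γ ^ (2 * C₁ + C₂) * r * r ^ (d - 2) := by gcongr
      _ = Γ ^ (2 * C₁ + C₂) * r ^ (d - 1) := by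
          rw [mul_assoc, ← pow_succ', show d - 2 + 1 = d - 1 by omega]
      _ ≤ _ := mul_le_mul_of_nonneg_right (pow_le_pow_right₀ hΓ (by omega)) (by positivity)
  · refine Or.inl ?_
    have h4 : s ^ 2 ≤ (Γ ^ (2 * C₁ + C₂) * μ ^ (d - 1)) ^ 2 := by
      refine hs2.trans ?_
      calc Γ ^ (2 * C₁ + C₂) * μ ^ 2 * r ^ (d - 2)
          ≤ Γ ^ (2 * C₁ + C₂) * μ ^ 2 * (μ ^ 2) ^ (d - 2) := by gcongr
        _ = Γ ^ (2 * C₁ + C₂) * (μ ^ (d - 1)) ^ 2 := by
            rw [mul_assoc, ← pow_succ', show d - 2 + 1 = d - 1 by omega, ← pow_mul, ← pow_mul, mul_comm 2 (d - 1)]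
        _ ≤ Γ ^ (2 * C₁ + C₂) * Γ ^ (2 * C₁ + C₂) * (μ ^ (d - 1)) ^ 2 := by
            refine mul_le_mul_of_nonneg_right (le_mul_of_one_le_left (by positivity) (one_le_pow₀ hΓ)) (sq_nonneg _)
        _ = _ := by ring
    have h5 := (pow_le_pow_iff_left₀ hs (by positivity) two_ne_zero).1 h4
    calc s * M ≤ Γ ^ (2 * C₁ + C₂) * μ ^ (d - 1) * M := mul_le_mul_of_nonneg_right h5 hM
      _ = Γ ^ (2 * C₁ + C₂) * (μ ^ (d - 1) * M) := by ring
      _ ≤ Γ ^ (2 * C₁ + C₂) * (Γ ^ C₁ * r ^ d) := mul_le_mul_of_nonneg_left h3 (by positivity)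
      _ = Γ ^ (2 * C₁ + C₂ + C₁) * r ^ d := by ring
      _ ≤ _ := mul_le_mul_of_nonneg_right (pow_le_pow_right₀ hΓ (by omega)) (by positivity)

/-- The arithmetic when the caught forms span the hyperplane. -/
theorem top_case (Γ r s M δ N f : ℝ) (C₁ C₂ i d C : ℕ) (hdi : d = i + 1) (hΓ : 1 ≤ Γ)
    (hC : C₁ + C₂ ≤ C) (hs : 0 ≤ s) (hδ : 0 < δ) (hr : 0 ≤ r) (hN : 0 ≤ N) (hf : 0 ≤ f)
    (hM : M ≤ N * f) (h2 : s * f ≤ Γ ^ C₁ * r * δ) (hA : δ * N ≤ Γ ^ C₂ * r ^ i) :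
    s * M ≤ Γ ^ C * r ^ d := by
  subst hdi
  refine le_of_mul_le_mul_right ?_ hδ
  calc s * M * δ ≤ s * (N * f) * δ := mul_le_mul_of_nonneg_right (mul_le_mul_of_nonneg_left hM hs) hδ.le
    _ = (s * f) * (δ * N) := by ring
    _ ≤ (Γ ^ C₁ * r * δ) * (Γ ^ C₂ * r ^ i) := mul_le_mul h2 hA (by positivity) (by positivity)
    _ = Γ ^ (C₁ + C₂) * r ^ (i + 1) * δ := by ring
    _ ≤ _ := mul_le_mul_of_nonneg_right (mul_le_mul_of_nonneg_right (pow_le_pow_right₀ hΓ hC) (by positivity)) hδ.le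

/-- Forms of small image spanning the space are few. -/
theorem count_all (d : ℕ) : ∃ C, Count d C := by
  induction d using Nat.strong_induction_on with
  | _ d ih =>
  classical
  let Cf : ℕ → ℕ := fun i => if hi : i < d then Classical.choose (ih i hi) else 0
  set C₂ := ∑ i ∈ range d, Cf i with hC₂
  obtain ⟨C₁, hC₁⟩ : ∃ C₁ : ℕ, 1 ≤ d → ∀ (E : Type) [NormedAddCommGroup E] [InnerProductSpace ℝ E]
      [FiniteDimensional ℝ E] [DecidableEq E], Module.finrank ℝ E = d →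
      ∀ (B R : Finset E) (Γ : ℝ) (r : ℕ), AG B Γ → R.Nonempty → R ⊆ B → 1 ≤ r →
      (∀ u ∈ R, (B.image fun x => ⟪u, x⟫).card ≤ r) → Submodule.span ℝ (R : Set E) = ⊤ →
      Γ ^ C₁ * r ≤ B.card →
      ∃ (z : E) (μ : ℝ), z ≠ 0 ∧ 1 ≤ μ ∧
        (R.card : ℝ) ≤ Γ ^ C₁ * μ * ((R.filter fun u => ⟪u, z⟫ = 0).card : ℝ) ∧
        (R.card : ℝ) * (fibre B z).card ≤ Γ ^ C₁ * r * ((R.filter fun u => ⟪u, z⟫ = 0).card : ℝ) ∧
        μ ^ (d - 1) * B.card ≤ Γ ^ C₁ * (r : ℝ) ^ d := by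
    by_cases hd : 1 ≤ d
    · obtain ⟨C, hC⟩ := key_lemma d hd
      exact ⟨C, fun _ => hC⟩
    · exact ⟨0, fun h => absurd h hd⟩
  refine ⟨4 * (C₁ + C₂) + 1, ?_⟩
  intro E _ _ _ _ hfr B R Γ r h hRB hR0 hRi hr hspan
  set C := 4 * (C₁ + C₂) + 1 with hC
  have hG := h.one_le
  have hG0 := h.pos
  rcases R.eq_empty_or_nonempty with rfl | hRne
  · refine Or.inl ?_
    rw [card_empty, Nat.cast_zero, zero_mul]
    positivity
  obtain ⟨u₀, hu₀⟩ := id hRne
  have hr1 : 1 ≤ r := le_trans (Finset.card_pos.2 (⟨0, h.zero_mem⟩ : B.Nonempty) |> fun hh =>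
    Finset.card_pos.2 ((Finset.card_pos.1 hh).image _)) (hr u₀ hu₀)
  have hr0 : (1 : ℝ) ≤ r := Nat.one_le_cast.2 hr1
  by_cases hd2 : d ≤ 1
  · have hs1 : R.card ≤ 1 := card_le_one_of_finrank R hR0 hRi (by rw [hspan, finrank_top, hfr]; exact hd2)
    have hM := card_le_pow B R r hr hspan
    rw [hfr] at hM
    refine Or.inl ?_
    calc (R.card : ℝ) * B.card ≤ 1 * (r : ℝ) ^ d :=
          mul_le_mul (by exact_mod_cast hs1) (by exact_mod_cast hM) (Nat.cast_nonneg _) zero_le_one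
      _ ≤ _ := mul_le_mul_of_nonneg_right (one_le_pow₀ hG) (by positivity)
  by_cases hbig : Γ ^ C₁ * r ≤ B.card
  swap
  · refine Or.inl ?_
    have hle := (not_le.1 hbig).le
    calc (R.card : ℝ) * B.card ≤ B.card * B.card :=
          mul_le_mul_of_nonneg_right (Nat.cast_le.2 (card_le_card hRB)) (Nat.cast_nonneg _)
      _ ≤ (Γ ^ C₁ * r) * (Γ ^ C₁ * r) := mul_le_mul hle hle (Nat.cast_nonneg _) (by positivity)
      _ = Γ ^ (C₁ + C₁) * (r : ℝ) ^ 2 := by ring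
      _ ≤ _ := mul_le_mul (h.mono_pow (by omega)) (pow_le_pow_right₀ hr0 (by omega)) (by positivity)
          (by positivity)
  obtain ⟨z, μ, hz, hμ, h1, h2, h3⟩ := hC₁ (by omega) E hfr B R Γ r h hRne hRB hr1 hr hspan hbig
  set RH := R.filter fun u => ⟪u, z⟫ = 0 with hRH
  set δ : ℝ := (RH.card : ℝ) with hδ
  have hs0 : (0 : ℝ) < R.card := Nat.cast_pos.2 hRne.card_pos
  have hδ0 : 0 < δ := by
    by_contra hn
    have : δ = 0 := le_antisymm (not_lt.1 hn) (Nat.cast_nonneg _)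
    rw [this, mul_zero] at h1
    linarith
  set S := Submodule.span ℝ (RH : Set E) with hSdef
  have hSz : ∀ x ∈ S, ⟪x, z⟫ = 0 := by
    intro x hx
    induction hx using Submodule.span_induction with
    | mem x hx => exact (mem_filter.1 hx).2
    | zero => exact inner_zero_left _
    | add x y _ _ hx hy => rw [inner_add_left, hx, hy, add_zero]
    | smul c x _ hx => rw [real_inner_smul_left, hx, mul_zero]
  have hzS : z ∈ Sᗮ := (Submodule.mem_orthogonal _ _).2 hSz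
  set i := Module.finrank ℝ S with hi
  have hid : i < d := by
    have h' := Submodule.finrank_add_finrank_orthogonal S
    have : 0 < Module.finrank ℝ Sᗮ :=
      Module.finrank_pos_iff_exists_ne_zero.2 ⟨⟨z, hzS⟩, fun e => hz (congrArg Subtype.val e)⟩
    omega
  have hRH0 : ∀ u ∈ RH, u ≠ 0 := fun u hu => hR0 u (mem_filter.1 hu).1
  have hRHi : ∀ u ∈ RH, ∀ v ∈ RH, ∀ c : ℝ, v = c • u → v = u := fun u hu v hv =>
    hRi u (mem_filter.1 hu).1 v (mem_filter.1 hv).1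
  by_cases hi1 : i ≤ 1
  · refine Or.inl ?_
    have hδ1 : δ ≤ 1 := by
      simp only [hδ]; exact_mod_cast card_le_one_of_finrank RH hRH0 hRHi hi1
    calc (R.card : ℝ) * B.card ≤ Γ ^ C₁ * μ * 1 * B.card :=
          mul_le_mul_of_nonneg_right (h1.trans (mul_le_mul_of_nonneg_left hδ1 (by positivity))) (Nat.cast_nonneg _)
      _ ≤ Γ ^ C₁ * (μ ^ (d - 1) * B.card) := by
          rw [mul_one, mul_assoc]
          exact mul_le_mul_of_nonneg_left (mul_le_mul_of_nonneg_right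
            (le_self_pow₀ hμ (by omega)) (Nat.cast_nonneg _)) (by positivity)
      _ ≤ Γ ^ C₁ * (Γ ^ C₁ * (r : ℝ) ^ d) := mul_le_mul_of_nonneg_left h3 (by positivity)
      _ = Γ ^ (C₁ + C₁) * (r : ℝ) ^ d := by ring
      _ ≤ _ := mul_le_mul_of_nonneg_right (h.mono_pow (by omega)) (by positivity)
  have hCi : Count i (Cf i) := by
    simp only [Cf, dif_pos hid]; exact Classical.choose_spec (ih i hid)
  have hCle : Cf i ≤ C₂ := single_le_sum (fun _ _ => Nat.zero_le _) (mem_range.2 hid)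
  obtain ⟨N, hN1, -, -, hN4, hres⟩ := descend h RH r ((filter_subset _ _).trans hRB) hRH0 hRHi
    (fun u hu => hr u (mem_filter.1 hu).1) i (Cf i) rfl hCi
  by_cases htop : i = d - 1
  · rcases hres with hA | ⟨hi4, hB⟩
    · refine Or.inl ?_
      have hperp : Submodule.span ℝ ({z} : Set E) = Sᗮ := by
        refine Submodule.eq_of_le_of_finrank_le (Submodule.span_le.2 (by simpa using hzS)) ?_
        have h' := Submodule.finrank_add_finrank_orthogonal S
        rw [finrank_span_singleton hz]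
        omega
      have hMf : (B.card : ℝ) ≤ N * (fibre B z).card := by
        exact_mod_cast hN4 (fibre B z) fun x hx hxS => mem_filter.2 ⟨hx, hperp ▸ hxS⟩
      exact top_case Γ r _ _ δ N _ C₁ (Cf i) i d C (by omega) hG (by omega) hs0.le hδ0
        (Nat.cast_nonneg _) (Nat.cast_nonneg _) (Nat.cast_nonneg _) hMf h2 hA
    · exact few_caught Γ μ _ δ _ r C₁ C₂ C d (by omega) hG hμ hs0.le (Nat.cast_nonneg _) (Nat.cast_nonneg _)
        (by omega) h1 (hB.trans (mul_le_mul (h.mono_pow hCle) (pow_le_pow_right₀ hr0 (by omega))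
          (by positivity) (by positivity))) h3
  · have hδ2 : δ ^ 2 ≤ Γ ^ C₂ * (r : ℝ) ^ (d - 2) := by
      have hN1' : δ ≤ (N : ℝ) := Nat.cast_le.2 hN1
      rcases hres with hA | ⟨hi4, hB⟩
      · rw [sq]
        exact (mul_le_mul_of_nonneg_left hN1' hδ0.le).trans (hA.trans (mul_le_mul (h.mono_pow hCle)
          (pow_le_pow_right₀ hr0 (by omega)) (by positivity) (by positivity)))
      · exact hB.trans (mul_le_mul (h.mono_pow hCle) (pow_le_pow_right₀ hr0 (by omega)) (by positivity) (by positivity))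
    exact few_caught Γ μ _ δ _ r C₁ C₂ C d (by omega) hG hμ hs0.le (Nat.cast_nonneg _) (Nat.cast_nonneg _)
      (by omega) h1 hδ2 h3

end Vale.Agent.Doubling.AllDim
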