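import Vale.Agent.Doubling.AllDim.Induct

/-!
The sum of the reciprocals of the image sizes of the forms in an approximate group.
-/

open Finset
open scoped Pointwise RealInnerProductSpace

namespace Vale.Agent.Doubling.AllDim

set_option linter.unusedSectionVars false

variable {E : Type} [NormedAddCommGroup E] [InnerProductSpace ℝ E] [FiniteDimensional ℝ E]
  [DecidableEq E]

theorem card_image_smul (B : Finset E) (a : E) {c : ℝ} (hc : c ≠ 0) :
    (B.image fun x => ⟪c • a, x⟫).card = (B.image fun x => ⟪a, x⟫).card := by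
  have : (B.image fun x => ⟪c • a, x⟫) = (B.image fun x => ⟪a, x⟫).image (c * ·) := by
    rw [image_image]
    exact image_congr fun x _ => real_inner_smul_left a x c
  rw [this, card_image_of_injective _ (mul_right_injective₀ hc)]

/-- The arithmetic of one class. -/
theorem class_arith (Γ x r s k N : ℝ) (C d j : ℕ) (hΓ : 2 ≤ Γ) (hx : 1 ≤ x) (hr1 : 1 ≤ r)
    (hd : 2 ≤ d) (hj1 : 1 ≤ j) (hjd : j ≤ d) (hs : 1 ≤ s) (hjs : (j : ℝ) ≤ s) (hk : 1 ≤ k)
    (hN0 : 0 ≤ N) (hN : N ≤ x ^ d) (hsk : s * k ≤ Γ * N) (hsk2 : (s - 1) * k ^ 2 ≤ Γ * N)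
    (hj : j = 1 → s = 1)
    (hres : s * N ≤ Γ ^ C * r ^ j ∨ (4 ≤ j ∧ s ^ 2 ≤ Γ ^ C * r ^ (j - 1))) :
    s * k / r ≤ Γ ^ (C + 4) * x ^ (d - 2) := by
  have hG1 : 1 ≤ Γ := by linarith
  have hr : 0 < r := by linarith
  have hpow : ∀ {a : ℕ}, a ≤ C + 4 → Γ ^ a ≤ Γ ^ (C + 4) := fun ha => pow_le_pow_right₀ hG1 ha
  rw [div_le_iff₀ hr]
  rcases le_total (x ^ 2) r with hbig | hsmall
  · calc s * k ≤ Γ * x ^ d := hsk.trans (mul_le_mul_of_nonneg_left hN (by linarith))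
      _ = Γ * x ^ (d - 2) * x ^ 2 := by rw [mul_assoc, ← pow_add, show d - 2 + 2 = d by omega]
      _ ≤ Γ ^ (C + 4) * x ^ (d - 2) * r :=
          mul_le_mul (mul_le_mul_of_nonneg_right (le_trans (le_of_eq (pow_one Γ).symm) (hpow (by omega)))
            (by positivity)) hbig (by positivity) (by positivity)
  rcases eq_or_lt_of_le hj1 with rfl | hj2
  · have hs1 : s = 1 := hj rfl
    rcases hres with hA | ⟨h4, -⟩
    · rw [hs1, one_mul, pow_one] at hA
      calc s * k ≤ Γ * (Γ ^ C * r) := hsk.trans (mul_le_mul_of_nonneg_left hA (by linarith))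
        _ = Γ ^ (C + 1) * 1 * r := by ring
        _ ≤ _ := mul_le_mul_of_nonneg_right (mul_le_mul (hpow (by omega)) (one_le_pow₀ hx) zero_le_one
            (by positivity)) hr.le
    · omega
  have hs2 : 2 ≤ s := le_trans (by exact_mod_cast hj2) hjs
  have hk2 : s * k ^ 2 ≤ Γ ^ 2 * N := by
    have h1 : s * k ^ 2 ≤ 2 * ((s - 1) * k ^ 2) := by nlinarith [sq_nonneg k]
    calc s * k ^ 2 ≤ 2 * (Γ * N) := h1.trans (mul_le_mul_of_nonneg_left hsk2 (by norm_num))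
      _ ≤ Γ * (Γ * N) := mul_le_mul_of_nonneg_right hΓ (by positivity)
      _ = _ := by ring
  have hsk0 : 0 ≤ s * k := by positivity
  have hsq : (s * k) ^ 2 ≤ Γ ^ 2 * (s * N) := by
    calc (s * k) ^ 2 = s * (s * k ^ 2) := by ring
      _ ≤ s * (Γ ^ 2 * N) := mul_le_mul_of_nonneg_left hk2 (by linarith)
      _ = _ := by ring
  rcases hres with hA | ⟨h4, hB⟩
  · refine (pow_le_pow_iff_left₀ hsk0 (by positivity) two_ne_zero).1 ?_
    calc (s * k) ^ 2 ≤ Γ ^ 2 * (Γ ^ C * r ^ j) := hsq.trans (mul_le_mul_of_nonneg_left hA (by positivity))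
      _ = Γ ^ (C + 2) * r ^ (j - 2) * r ^ 2 := by
          rw [mul_assoc (Γ ^ (C + 2)), ← pow_add r, show j - 2 + 2 = j by omega]; ring
      _ ≤ Γ ^ (C + 4) * Γ ^ (C + 4) * (x ^ 2) ^ (d - 2) * r ^ 2 := by
          refine mul_le_mul_of_nonneg_right (mul_le_mul
            ((hpow (by omega)).trans (le_mul_of_one_le_left (by positivity) (one_le_pow₀ hG1))) ?_
            (by positivity) (by positivity)) (by positivity)
          exact (pow_le_pow_left₀ hr.le hsmall _).trans (pow_le_pow_right₀ (one_le_pow₀ hx) (by omega))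
      _ = _ := by rw [pow_right_comm x 2 (d - 2)]; ring
  · refine (pow_le_pow_iff_left₀ hsk0 (by positivity) (show (4 : ℕ) ≠ 0 by norm_num)).1 ?_
    have hr4 : r ^ (j - 1) ≤ (x ^ 2) ^ (j - 5) * r ^ 4 := by
      rcases eq_or_lt_of_le h4 with rfl | h5
      · norm_num
        exact pow_le_pow_right₀ hr1 (by norm_num)
      · rw [show j - 1 = j - 5 + 4 by omega, pow_add]
        exact mul_le_mul_of_nonneg_right (pow_le_pow_left₀ hr.le hsmall _) (by positivity)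
    calc (s * k) ^ 4 = ((s * k) ^ 2) ^ 2 := by ring
      _ ≤ (Γ ^ 2 * (s * N)) ^ 2 := pow_le_pow_left₀ (sq_nonneg _) hsq 2
      _ = Γ ^ 4 * s ^ 2 * N ^ 2 := by ring
      _ ≤ Γ ^ 4 * (Γ ^ C * ((x ^ 2) ^ (j - 5) * r ^ 4)) * (x ^ d) ^ 2 := by
          refine mul_le_mul (mul_le_mul_of_nonneg_left (hB.trans (mul_le_mul_of_nonneg_left hr4
            (by positivity))) (by positivity)) (pow_le_pow_left₀ hN0 hN 2) (by positivity) (by positivity)
      _ = Γ ^ (C + 4) * (x ^ (2 * (j - 5) + 2 * d) * r ^ 4) := by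
          rw [pow_add x, pow_mul, pow_mul, ← pow_mul x d 2, mul_comm d 2, pow_mul]; ring
      _ ≤ (Γ ^ (C + 4)) ^ 4 * (x ^ ((d - 2) * 4) * r ^ 4) := by
          refine mul_le_mul (le_self_pow₀ (one_le_pow₀ hG1) (by norm_num)) (mul_le_mul_of_nonneg_right
            (pow_le_pow_right₀ hx ?_) (by positivity)) (by positivity) (by positivity)
          omega
      _ = _ := by rw [pow_mul]; ring

/-- One class of lines. -/
theorem class_bound (d : ℕ) (hd : 2 ≤ d) (hfr : Module.finrank ℝ E = d) (Cf : ℕ → ℕ)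
    (hCf : ∀ j, Count j (Cf j)) {B : Finset E} {Γ : ℝ} (h : AG B Γ) (x : ℝ) (hx : 1 ≤ x)
    (hxB : (B.card : ℝ) ≤ x ^ d) (w : E) (Dp : Finset E) (hDp : Dp ⊆ B.erase 0)
    (hpos : ∀ z ∈ Dp, 0 < ⟪w, z⟫) (S : Finset E) (i l : ℕ)
    (hin : ∀ a ∈ S, 2 ^ i ≤ (B.image fun z => ⟪a, z⟫).card ∧
      (B.image fun z => ⟪a, z⟫).card ≤ 2 ^ (i + 1) ∧
      2 ^ l ≤ (Dp.filter fun z => key w z = a).card ∧
      (Dp.filter fun z => key w z = a).card ≤ 2 ^ (l + 1)) :
    ∑ a ∈ S, ((Dp.filter fun z => key w z = a).card : ℝ) * (1 / ((B.image fun z => ⟪a, z⟫).card : ℝ)) ≤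
      4 * (Γ ^ ((∑ j ∈ range (d + 1), Cf j) + 4) * x ^ (d - 2)) := by
  classical
  have hG := h.pos
  set Cs := ∑ j ∈ range (d + 1), Cf j with hCs
  set ρ : E → ℕ := fun u => (B.image fun z => ⟪u, z⟫).card with hρ
  let F : E → Finset E := fun a => Dp.filter fun z => key w z = a
  rcases S.eq_empty_or_nonempty with h0 | ⟨a₀, ha₀⟩
  · rw [h0, sum_empty]; positivity
  have hFdec : ∀ a, ∀ z ∈ F a, 0 < ⟪w, z⟫ ∧ ⟪w, z⟫ • a = z := by
    intro a z hz
    obtain ⟨hzD, rfl⟩ := mem_filter.1 hz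
    exact ⟨hpos z hzD, smul_key (hpos z hzD).ne'⟩
  have hFρ : ∀ a, ∀ z ∈ F a, ρ z = ρ a := fun a z hz => by
    obtain ⟨h1, h2⟩ := hFdec a z hz
    simp only [hρ]
    rw [← h2, card_image_smul B a h1.ne']
  have hrep : ∀ a ∈ S, ∃ z, z ∈ F a := fun a ha =>
    Finset.card_pos.1 (lt_of_lt_of_le (Nat.two_pow_pos l) (hin a ha).2.2.1)
  choose! rep hrep using hrep
  have hrepk : ∀ a ∈ S, key w (rep a) = a := fun a ha => (mem_filter.1 (hrep a ha)).2
  set R := S.image rep with hR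
  have hRcard : R.card = S.card := card_image_of_injOn fun a ha b hb e => by
    rw [← hrepk a ha, ← hrepk b hb, e]
  have hRB : R ⊆ B := fun u hu => by
    obtain ⟨a, ha, rfl⟩ := mem_image.1 hu
    exact (mem_erase.1 (hDp (mem_filter.1 (hrep a ha)).1)).2
  have hR0 : ∀ u ∈ R, u ≠ 0 := fun u hu => by
    obtain ⟨a, ha, rfl⟩ := mem_image.1 hu
    exact (mem_erase.1 (hDp (mem_filter.1 (hrep a ha)).1)).1
  have hRi : ∀ u ∈ R, ∀ v ∈ R, ∀ c : ℝ, v = c • u → v = u := fun u hu v hv c e => by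
    obtain ⟨a, ha, rfl⟩ := mem_image.1 hu
    obtain ⟨b, hb, rfl⟩ := mem_image.1 hv
    have hc : c ≠ 0 := fun h0 => hR0 _ hv (by rw [e, h0, zero_smul])
    rw [← hrepk a ha, ← key_smul (w := w) (z := rep a) hc, ← e, hrepk b hb]
  have hr : ∀ u ∈ R, (B.image fun z => ⟪u, z⟫).card ≤ 2 ^ (i + 1) := fun u hu => by
    obtain ⟨a, ha, rfl⟩ := mem_image.1 hu
    have := hFρ a _ (hrep a ha)
    simp only [hρ] at this
    rw [this]
    exact (hin a ha).2.1
  set j := Module.finrank ℝ (Submodule.span ℝ (R : Set E)) with hj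
  have hjd : j ≤ d := hfr ▸ Submodule.finrank_le _
  obtain ⟨N, -, hNB, hX, -, hres⟩ := descend h R _ hRB hR0 hRi hr j (Cf j) rfl (hCf j)
  have hmemspan : ∀ a ∈ S, ∀ z ∈ F a, z ∈ Submodule.span ℝ (R : Set E) := fun a ha z hz => by
    obtain ⟨h1, h2⟩ := hFdec a _ (hrep a ha)
    obtain ⟨-, h2'⟩ := hFdec a z hz
    have hmem : rep a ∈ Submodule.span ℝ (R : Set E) :=
      Submodule.subset_span (mem_image_of_mem rep ha)
    have ha' : a ∈ Submodule.span ℝ (R : Set E) := by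
      have := Submodule.smul_mem _ (⟪w, rep a⟫)⁻¹ hmem
      have e : (⟪w, rep a⟫)⁻¹ • rep a = key w (rep a) := rfl
      rwa [e, hrepk a ha] at this
    exact h2' ▸ Submodule.smul_mem _ _ ha'
  set U := S.biUnion F with hU
  have hU2 : U ⊆ 2 • B := fun z hz => by
    obtain ⟨a, ha, hz⟩ := mem_biUnion.1 hz
    exact h.nsmul_subset (show 1 ≤ 2 by norm_num)
      (by rw [one_nsmul]; exact (mem_erase.1 (hDp (mem_filter.1 hz).1)).2)
  have hUspan : ∀ z ∈ U, z ∈ Submodule.span ℝ (R : Set E) := fun z hz => by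
    obtain ⟨a, ha, hz⟩ := mem_biUnion.1 hz
    exact hmemspan a ha z hz
  have hsk : (S.card : ℝ) * (2 : ℝ) ^ l ≤ Γ * N := by
    refine le_trans ?_ (hX U hU2 hUspan)
    rw [hU, card_biUnion fun a _ b _ hab => disjoint_filter.2 fun z _ h1 h2 => hab (h1.symm.trans h2)]
    calc (S.card : ℝ) * (2 : ℝ) ^ l = ((S.card • 2 ^ l : ℕ) : ℝ) := by simp
      _ ≤ _ := Nat.cast_le.2 (card_nsmul_le_sum _ _ _ fun a ha => (hin a ha).2.2.1)
  have hsk2 : ((S.card : ℝ) - 1) * ((2 : ℝ) ^ l) ^ 2 ≤ Γ * N := by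
    have hp := pairs (Dp.filter fun z => z ∈ U) w (fun z hz => hpos z (mem_filter.1 hz).1)
      S (2 ^ l) fun a ha => le_trans (hin a ha).2.2.1 (card_le_card fun z hz =>
        mem_filter.2 ⟨mem_filter.2 ⟨(mem_filter.1 hz).1, mem_biUnion.2 ⟨a, ha, hz⟩⟩, (mem_filter.1 hz).2⟩)
    refine le_trans ?_ (hX ((Dp.filter fun z => z ∈ U) + (Dp.filter fun z => z ∈ U)) ?_ ?_)
    · have h1 : ((S.card - 1 : ℕ) : ℝ) = (S.card : ℝ) - 1 := by
        rw [Nat.cast_sub (Finset.card_pos.2 ⟨a₀, ha₀⟩ : 1 ≤ S.card), Nat.cast_one]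
      rw [← h1]
      exact_mod_cast hp
    · intro z hz
      obtain ⟨p, hp, q, hq, rfl⟩ := mem_add.1 hz
      rw [two_nsmul]
      exact add_mem_add (mem_erase.1 (hDp (mem_filter.1 hp).1)).2
        (mem_erase.1 (hDp (mem_filter.1 hq).1)).2
    · intro z hz
      obtain ⟨p, hp, q, hq, rfl⟩ := mem_add.1 hz
      exact Submodule.add_mem _ (hUspan p (mem_filter.1 hp).2) (hUspan q (mem_filter.1 hq).2)
  have hj1 : 1 ≤ j := by
    refine Module.finrank_pos_iff_exists_ne_zero.2 ⟨⟨rep a₀, Submodule.subset_span (mem_image_of_mem rep ha₀)⟩,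
      fun e => hR0 _ (mem_image_of_mem rep ha₀) (congrArg Subtype.val e)⟩
  have hjs : j ≤ S.card := hRcard ▸ finrank_span_finset_le_card R
  have hone : j = 1 → (S.card : ℝ) = 1 := fun e => by
    have h1 := card_le_one_of_finrank R hR0 hRi (le_of_eq e)
    rw [hRcard] at h1
    have : S.card = 1 := le_antisymm h1 (Finset.card_pos.2 ⟨a₀, ha₀⟩)
    rw [this, Nat.cast_one]
  rw [hRcard] at hres
  push_cast at hres
  have hCle : Cf j ≤ Cs := single_le_sum (fun _ _ => Nat.zero_le _) (mem_range.2 (by omega))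
  have hres' : (S.card : ℝ) * N ≤ Γ ^ Cs * ((2 : ℝ) ^ (i + 1)) ^ j ∨
      (4 ≤ j ∧ (S.card : ℝ) ^ 2 ≤ Γ ^ Cs * ((2 : ℝ) ^ (i + 1)) ^ (j - 1)) := by
    rcases hres with hA | ⟨h4, hB⟩
    · exact Or.inl (hA.trans (mul_le_mul_of_nonneg_right (h.mono_pow hCle) (by positivity)))
    · exact Or.inr ⟨h4, hB.trans (mul_le_mul_of_nonneg_right (h.mono_pow hCle) (by positivity))⟩
  have harith := class_arith Γ x ((2 : ℝ) ^ (i + 1)) S.card ((2 : ℝ) ^ l) N Cs d j h.two_le hx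
    (one_le_pow₀ one_le_two) hd hj1 hjd (Nat.one_le_cast.2 (Finset.card_pos.2 ⟨a₀, ha₀⟩))
    (Nat.cast_le.2 hjs) (one_le_pow₀ one_le_two) (Nat.cast_nonneg _)
    (le_trans (Nat.cast_le.2 hNB) hxB) hsk hsk2 hone hres'
  calc ∑ a ∈ S, ((F a).card : ℝ) * (1 / (ρ a : ℝ))
      ≤ ∑ _a ∈ S, (2 : ℝ) ^ (l + 1) * (1 / (2 : ℝ) ^ i) := by
        refine sum_le_sum fun a ha => mul_le_mul (by exact_mod_cast (hin a ha).2.2.2) ?_
          (by positivity) (by positivity)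
        exact one_div_le_one_div_of_le (by positivity) (by exact_mod_cast (hin a ha).1)
    _ = 4 * ((S.card : ℝ) * (2 : ℝ) ^ l / (2 : ℝ) ^ (i + 1)) := by
        rw [sum_const, nsmul_eq_mul, pow_succ, pow_succ]; field_simp; ring
    _ ≤ _ := mul_le_mul_of_nonneg_left harith (by norm_num)

/-- The sum of the reciprocals of the image sizes. -/
theorem sum_inv (d : ℕ) (hd : 2 ≤ d) : ∃ C : ℕ, ∀ (E : Type) [NormedAddCommGroup E]
    [InnerProductSpace ℝ E] [FiniteDimensional ℝ E] [DecidableEq E], Module.finrank ℝ E = d →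
    ∀ (B : Finset E) (Γ : ℝ) (x : ℝ), AG B Γ → 1 ≤ x → (B.card : ℝ) ≤ x ^ d →
      ∑ u ∈ B.erase 0, 1 / ((B.image fun z => ⟪u, z⟫).card : ℝ) ≤ Γ ^ C * x ^ (d - 2) := by
  classical
  choose Cf hCf using count_all
  set Cs := ∑ i ∈ range (d + 1), Cf i with hCs
  refine ⟨Cs + 4 + 9, ?_⟩
  intro E _ _ _ _ hfr B Γ x h hx hxB
  have hG := h.pos
  have hG1 := h.one_le
  set ρ : E → ℕ := fun u => (B.image fun z => ⟪u, z⟫).card with hρ
  have hρpos : ∀ u, 1 ≤ ρ u := fun u => (Finset.Nonempty.image ⟨0, h.zero_mem⟩ _).card_pos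
  obtain ⟨w, hw⟩ := exists_generic (B.erase 0) (notMem_erase _ _)
  have hneg : ∀ z ∈ B.erase 0, -z ∈ B.erase 0 := fun z hz =>
    mem_erase.2 ⟨neg_ne_zero.2 (mem_erase.1 hz).1, h.neg_eq ▸ neg_mem_neg (mem_erase.1 hz).2⟩
  set Dp := (B.erase 0).filter fun z => 0 < ⟪w, z⟫ with hDp
  have hhalf : ∑ u ∈ B.erase 0, 1 / (ρ u : ℝ) = 2 * ∑ u ∈ Dp, 1 / (ρ u : ℝ) := by
    rw [← sum_filter_add_sum_filter_not (B.erase 0) (fun z => 0 < ⟪w, z⟫), two_mul]
    congr 1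
    refine sum_nbij' (fun z => -z) (fun z => -z) ?_ ?_ ?_ ?_ ?_
    · intro z hz
      obtain ⟨hzD, hz'⟩ := mem_filter.1 hz
      refine mem_filter.2 ⟨hneg z hzD, ?_⟩
      rw [inner_neg_right]
      have := lt_of_le_of_ne (not_lt.1 hz') (hw z hzD)
      linarith
    · intro z hz
      obtain ⟨hzD, hz'⟩ := mem_filter.1 hz
      refine mem_filter.2 ⟨hneg z hzD, ?_⟩
      rw [inner_neg_right]
      linarith
    · intro z _; exact neg_neg z
    · intro z _; exact neg_neg z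
    · intro z _
      simp only [hρ]
      rw [← neg_one_smul ℝ z, card_image_smul B z (by norm_num)]
  set keys := Dp.image (key w) with hkeys
  let F : E → Finset E := fun a => Dp.filter fun z => key w z = a
  have hFdec : ∀ a, ∀ z ∈ F a, 0 < ⟪w, z⟫ ∧ ⟪w, z⟫ • a = z := by
    intro a z hz
    obtain ⟨hzD, rfl⟩ := mem_filter.1 hz
    have := (mem_filter.1 hzD).2
    exact ⟨this, smul_key this.ne'⟩
  have hFρ : ∀ a, ∀ z ∈ F a, ρ z = ρ a := fun a z hz => by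
    obtain ⟨h1, h2⟩ := hFdec a z hz
    simp only [hρ]
    rw [← h2, card_image_smul B a h1.ne']
  have hrep : ∀ a ∈ keys, ∃ z, z ∈ F a := fun a ha => by
    obtain ⟨z, hz, rfl⟩ := mem_image.1 ha
    exact ⟨z, mem_filter.2 ⟨hz, rfl⟩⟩
  have hsum : ∑ u ∈ Dp, 1 / (ρ u : ℝ) = ∑ a ∈ keys, ((F a).card : ℝ) * (1 / (ρ a : ℝ)) := by
    rw [← sum_fiberwise_of_maps_to (g := key w) (t := keys) fun z hz => mem_image_of_mem _ hz]
    refine sum_congr rfl fun a _ => ?_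
    rw [← nsmul_eq_mul, ← sum_const]
    exact sum_congr rfl fun z hz => by rw [hFρ a z hz]
  set L := Nat.log 2 B.card + 1 with hL
  have hLb : (L : ℝ) ≤ Γ ^ 2 := by
    have h1 : ((2 : ℕ) : ℝ) ^ Nat.log 2 B.card ≤ (B.card : ℝ) := by
      exact_mod_cast Nat.pow_log_le_self 2 h.card_pos.ne'
    have h2 := Real.log_le_log (by positivity) h1
    rw [Real.log_pow] at h2
    push_cast at h2
    have h3 := h.log_le
    have h4 : (Nat.log 2 B.card : ℝ) * 0.5 ≤ (Nat.log 2 B.card : ℝ) * Real.log 2 :=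
      mul_le_mul_of_nonneg_left (by linarith [Real.log_two_gt_d9]) (Nat.cast_nonneg _)
    have h5 : 2 * Γ ≤ Γ ^ 2 := by rw [sq]; exact mul_le_mul_of_nonneg_right h.two_le hG.le
    rw [hL]; push_cast
    linarith
  let cls : E → ℕ × ℕ := fun a => (Nat.log 2 (ρ a), Nat.log 2 (F a).card)
  have hmaps : ∀ a ∈ keys, cls a ∈ range L ×ˢ range L := fun a _ =>
    mem_product.2 ⟨mem_range.2 (show Nat.log 2 (ρ a) < L from Nat.lt_succ_of_le (Nat.log_mono_right card_image_le)),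
      mem_range.2 (show Nat.log 2 (F a).card < L from Nat.lt_succ_of_le (Nat.log_mono_right (card_le_card
        ((filter_subset _ _).trans ((filter_subset _ _).trans (erase_subset _ _))))))⟩
  have hclass : ∀ c ∈ range L ×ˢ range L,
      ∑ a ∈ keys.filter (fun a => cls a = c), ((F a).card : ℝ) * (1 / (ρ a : ℝ)) ≤
        4 * (Γ ^ (Cs + 4) * x ^ (d - 2)) := by
    rintro ⟨i, l⟩ _
    refine class_bound d hd hfr Cf hCf h x hx hxB w Dp (filter_subset _ _)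
      (fun z hz => (mem_filter.1 hz).2) _ i l fun a ha => ?_
    obtain ⟨hk, hc⟩ := mem_filter.1 ha
    simp only [cls, Prod.mk.injEq] at hc
    obtain ⟨rfl, rfl⟩ := hc
    obtain ⟨z, hz⟩ := hrep a hk
    exact ⟨Nat.pow_log_le_self 2 (Nat.one_le_iff_ne_zero.1 (hρpos a)),
      (Nat.lt_pow_succ_log_self (by norm_num) _).le,
      Nat.pow_log_le_self 2 (Finset.card_pos.2 ⟨z, hz⟩).ne',
      (Nat.lt_pow_succ_log_self (by norm_num) _).le⟩
  have htot : ∑ a ∈ keys, ((F a).card : ℝ) * (1 / (ρ a : ℝ)) ≤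
      (L : ℝ) * L * (4 * (Γ ^ (Cs + 4) * x ^ (d - 2))) := by
    rw [← sum_fiberwise_of_maps_to hmaps]
    refine (sum_le_sum hclass).trans (le_of_eq ?_)
    rw [sum_const, card_product, card_range, nsmul_eq_mul]
    push_cast
    rfl
  calc ∑ u ∈ B.erase 0, 1 / (ρ u : ℝ) ≤ 2 * ((L : ℝ) * L * (4 * (Γ ^ (Cs + 4) * x ^ (d - 2)))) := by
        rw [hhalf, hsum]; linarith
    _ ≤ Γ * (Γ ^ 2 * Γ ^ 2 * (Γ ^ 4 * (Γ ^ (Cs + 4) * x ^ (d - 2)))) := by
        gcongr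
        · exact h.two_le
        · exact le_trans (by norm_num) (h.two_pow_le 4)
    _ = _ := by ring

end Vale.Agent.Doubling.AllDim
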