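import Vale.Agent.Doubling.AllDim.Rich

/-!
The key lemma: one hyperplane catches many forms of small image, with a good bound on the
multiples of its normal.
-/

open Finset
open scoped Pointwise RealInnerProductSpace

namespace Vale.Agent.Doubling.AllDim

set_option linter.unusedSectionVars false

variable {E : Type*} [NormedAddCommGroup E] [InnerProductSpace ℝ E] [FiniteDimensional ℝ E]
  [DecidableEq E] {B : Finset E} {Γ : ℝ}

open Classical in
/-- Multiples of `z` in `B + B`. -/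
noncomputable def fibre (B : Finset E) (z : E) : Finset E :=
  (2 • B).filter fun x => x ∈ Submodule.span ℝ ({z} : Set E)

theorem card_image_le_prod {ι : Type*} [Fintype ι] (B : Finset E) (u : ι → E)
    (hu : Submodule.span ℝ (Set.range u) = ⊤) :
    B.card ≤ ∏ i, (B.image fun x => ⟪u i, x⟫).card := by
  classical
  rw [← Fintype.card_piFinset]
  refine card_le_card_of_injOn (fun x i => ⟪u i, x⟫)
    (fun x hx => Fintype.mem_piFinset.2 fun i => mem_image_of_mem _ hx) ?_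
  intro x _ y _ hxy
  refine ext_inner_left ℝ fun v => ?_
  obtain ⟨c, rfl⟩ := (Submodule.mem_span_range_iff_exists_fun ℝ).1
    (hu.symm ▸ Submodule.mem_top : v ∈ Submodule.span ℝ (Set.range u))
  simp only [sum_inner, real_inner_smul_left]
  exact sum_congr rfl fun i _ => congrArg (c i * ·) (congrFun hxy i)

theorem card_le_pow (B R : Finset E) (r : ℕ)
    (hr : ∀ u ∈ R, (B.image fun x => ⟪u, x⟫).card ≤ r)
    (hspan : Submodule.span ℝ (R : Set E) = ⊤) : B.card ≤ r ^ Module.finrank ℝ E := by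
  classical
  obtain ⟨g, hgR, hg, -⟩ := Submodule.exists_fun_fin_finrank_span_eq ℝ (R : Set E)
  refine (card_image_le_prod B g (hg.trans hspan)).trans ((prod_le_pow_card _ _ r fun i _ => hr _ (hgR i)).trans ?_)
  rw [card_univ, Fintype.card_fin, hspan, finrank_top]

theorem diff_subset (h : AG B Γ) (D₀ : Finset E) (hD₀ : D₀ ⊆ 2 • B) : D₀ - D₀ ⊆ (3 + 1) • B := by
  intro z hz
  obtain ⟨a, ha, b, hb, rfl⟩ := mem_sub.1 hz
  rw [show (3 + 1 : ℕ) = 2 + 2 from rfl, add_nsmul, sub_eq_add_neg]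
  refine add_mem_add (hD₀ ha) ?_
  rw [← h.neg_nsmul 2]
  exact neg_mem_neg (hD₀ hb)

/-- Sums of differences of small elements are few. -/
theorem sums_small (h : AG B Γ) (R : Finset E) (hRne : R.Nonempty) (d : ℕ)
    (hfr : Module.finrank ℝ E = d) (t : ℝ) (ht2 : 2 ≤ t) (Dp : Finset E)
    (hDp : Dp ⊆ ball B R ⊤ (t * R.card) - ball B R ⊤ (t * R.card)) :
    ((Dp + Dp).card : ℝ) ≤ Γ ^ (7 + (2 * 7 + 2 * d + 12) * d + 4 * d) *
      (ball B R ⊤ (t * R.card)).card := by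
  classical
  have hG := h.pos
  have hG1 := h.one_le
  set s : ℝ := (R.card : ℝ) with hs
  have hs0 : 0 < s := Nat.cast_pos.2 hRne.card_pos
  have hμ2 : 2 * s ≤ t * s := mul_le_mul_of_nonneg_right ht2 hs0.le
  have hts : 0 ≤ t * s := by linarith
  have hball : ∀ Y : Submodule ℝ E,
      ((ball B R Y (t * s)).card : ℝ) ≤ (ball B R ⊤ (t * s)).card := fun Y =>
    Nat.cast_le.2 (card_le_card (monotone_filter_right _ fun _ _ hv => ⟨Submodule.mem_top, hv.2⟩))
  have hsub4 := diff_subset h (ball B R ⊤ (t * s)) (filter_subset _ _)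
  have hwt : ∀ z ∈ Dp, (wt B R z : ℝ) ≤ Γ ^ 2 * (t * s) := by
    intro z hz
    obtain ⟨a, ha, b, hb, rfl⟩ := mem_sub.1 (hDp hz)
    refine (h.wt_sub R a b).trans ?_
    have ha' := (mem_filter.1 ha).2.2
    have hb' := mul_le_mul_of_nonneg_left (mem_filter.1 hb).2.2 hG.le
    have h12 : 1 + Γ ≤ Γ ^ 2 := by nlinarith [h.two_le]
    have := mul_le_mul_of_nonneg_right h12 hts
    linarith
  have h2 : Γ ^ 2 + Γ * Γ ^ 2 ≤ Γ ^ 4 := by
    have e : Γ ^ 4 - (Γ ^ 2 + Γ * Γ ^ 2) = Γ ^ 2 * (Γ * (Γ - 1) - 1) := by ring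
    have : 0 ≤ Γ * (Γ - 1) - 1 := by nlinarith [h.two_le]
    linarith [mul_nonneg (pow_nonneg hG.le 2) this]
  set j := Module.finrank ℝ (Submodule.span ℝ ((Dp + Dp : Finset E) : Set E)) with hj
  have hjd : j ≤ d := hfr ▸ Submodule.finrank_le _
  have h1 := h.pack 7 R (Dp + Dp) (Γ ^ 4 * (t * s)) (t * s) hRne (by
      intro z hz
      obtain ⟨a, ha, b, hb, rfl⟩ := mem_add.1 hz
      rw [show (7 + 1 : ℕ) = (3 + 1) + (3 + 1) from rfl, add_nsmul]
      exact add_mem_add (hsub4 (hDp ha)) (hsub4 (hDp hb)))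
    (by
      intro z hz
      obtain ⟨a, ha, b, hb, rfl⟩ := mem_add.1 hz
      refine (h.wt_add R a b).trans ?_
      have := mul_le_mul_of_nonneg_left (hwt b hb) hG.le
      have := hwt a ha
      have := mul_le_mul_of_nonneg_right h2 hts
      linarith)
    hμ2 (le_mul_of_one_le_left hts (one_le_pow₀ hG1)) j rfl
  have hts0 : t * s ≠ 0 := by
    have : 0 < t * s := by linarith
    exact this.ne'
  rw [mul_div_cancel_right₀ _ hts0, ← pow_mul, ← pow_add] at h1
  exact h1.trans (mul_le_mul (h.mono_pow (by gcongr)) (hball _) (Nat.cast_nonneg _) (pow_nonneg hG.le _))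

/-- Many small elements. -/
theorem many_small (h : AG B Γ) (R : Finset E) (hRne : R.Nonempty) (hRB : R ⊆ B) (r : ℕ)
    (hr : ∀ u ∈ R, (B.image fun x => ⟪u, x⟫).card ≤ r)
    (hspan : Submodule.span ℝ (R : Set E) = ⊤) (d : ℕ) (hfr : Module.finrank ℝ E = d) (k : ℕ)
    (hdk : d = k + 1) (t : ℝ) (ht0 : 0 ≤ t) (htr : t ≤ Γ * r) (ht2 : 2 ≤ t)
    (htk : t ^ k = Γ ^ ((12 + 2 * d) * d + d + 7) * (r : ℝ) ^ d / B.card) :
    128 * t ≤ ((ball B R ⊤ (t * R.card)).card : ℝ) := by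
  classical
  have hG := h.pos
  set e0 := (12 + 2 * d) * d + d + 7 with he0
  set s : ℝ := (R.card : ℝ) with hs
  set n : ℝ := ((ball B R ⊤ (t * s)).card : ℝ) with hn
  have hs0 : 0 < s := Nat.cast_pos.2 hRne.card_pos
  have hM0 : (0 : ℝ) < B.card := Nat.cast_pos.2 h.card_pos
  have hwtB : ∀ z : E, (wt B R z : ℝ) ≤ s * (Γ * r) := h.wt_le R r hr
  have hμ2 : 2 * s ≤ t * s := mul_le_mul_of_nonneg_right ht2 hs0.le
  have hμΛ : t * s ≤ s * (Γ * r) := by
    rw [mul_comm t s]; exact mul_le_mul_of_nonneg_left htr hs0.le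
  have hr0 : (0 : ℝ) < r := pos_of_mul_pos_right (lt_of_lt_of_le (by linarith : (0 : ℝ) < t) htr) hG.le
  have hball : ∀ Y : Submodule ℝ E, ((ball B R Y (t * s)).card : ℝ) ≤ n := fun Y =>
    Nat.cast_le.2 (card_le_card (monotone_filter_right _ fun _ _ hv => ⟨Submodule.mem_top, hv.2⟩))
  have hspanB : Submodule.span ℝ (B : Set E) = ⊤ :=
    top_unique (hspan.symm.le.trans (Submodule.span_mono (Finset.coe_subset.2 hRB)))
  have hj : Module.finrank ℝ (Submodule.span ℝ (B : Set E)) = d := by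
    rw [hspanB, finrank_top, hfr]
  have h1 := h.pack 0 R B (s * (Γ * r)) (t * s) hRne (by simp) (fun x _ => hwtB x) hμ2 hμΛ d hj
  have h2 : Γ ^ (0 + (2 * 0 + 2 * d + 12) * d) * (s * (Γ * r) / (t * s)) ^ d *
      ((ball B R (Submodule.span ℝ (B : Set E)) (t * s)).card : ℝ) ≤
      Γ ^ (0 + (2 * 0 + 2 * d + 12) * d) * (Γ * r / t) ^ d * n := by
    rw [show s * (Γ * r) / (t * s) = Γ * r / t by field_simp]
    exact mul_le_mul_of_nonneg_left (hball _) (by positivity)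
  have h3 := h1.trans h2
  rw [div_pow, mul_div_assoc', div_mul_eq_mul_div, le_div_iff₀ (by positivity)] at h3
  have htd : (B.card : ℝ) * t ^ d = Γ ^ e0 * (r : ℝ) ^ d * t := by
    rw [show t ^ d = t ^ k * t by rw [hdk, pow_succ], htk]; field_simp
  rw [htd, mul_pow, he0] at h3
  have h4 : (128 : ℝ) ≤ Γ ^ 7 := le_trans (by norm_num) (h.two_pow_le 7)
  have h5 : Γ ^ 7 * t ≤ n := by
    refine le_of_mul_le_mul_left (le_trans (le_of_eq ?_) (h3.trans (le_of_eq ?_)))
      (show 0 < Γ ^ ((12 + 2 * d) * d + d) * (r : ℝ) ^ d by positivity)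
    · ring
    · ring
  exact le_trans (mul_le_mul_of_nonneg_right h4 ht0) h5

/-- A form nonzero on `a` is injective on its multiples. -/
theorem fibre_inj (h : AG B Γ) (u a : E) (hu : ⟪u, a⟫ ≠ 0) (r : ℕ)
    (hru : (B.image fun x => ⟪u, x⟫).card ≤ r) : ((fibre B a).card : ℝ) ≤ Γ * (Γ * r) := by
  classical
  have hG := h.pos
  set A := ∑ x ∈ 2 • B, |⟪u, x⟫| with hA
  refine le_trans (le_trans (Nat.cast_le.2 ?_) (h.interval 1 u (-A) (A + A)))
    (by rw [pow_one]; exact mul_le_mul_of_nonneg_left ((h.cnt_le u _).trans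
      (mul_le_mul_of_nonneg_left (Nat.cast_le.2 hru) hG.le)) hG.le)
  refine card_le_card_of_injOn (fun x => ⟪u, x⟫) (fun x hx => ?_) ?_
  · have hx2 := (mem_filter.1 hx).1
    have hxA : |⟪u, x⟫| ≤ A := single_le_sum (f := fun x => |⟪u, x⟫|) (fun _ _ => abs_nonneg _) hx2
    refine mem_filter.2 ⟨mem_image.2 ⟨x, hx2, rfl⟩, ?_, ?_⟩
    · linarith [neg_abs_le ⟪u, x⟫]
    · linarith [le_abs_self ⟪u, x⟫]
  · intro x hx y hy e
    obtain ⟨c, rfl⟩ := Submodule.mem_span_singleton.1 (mem_filter.1 hx).2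
    obtain ⟨c', rfl⟩ := Submodule.mem_span_singleton.1 (mem_filter.1 hy).2
    simp only [real_inner_smul_right] at e
    rw [mul_right_cancel₀ hu e]

/-- Some line other than the richest one catches many forms for its number of multiples. -/
theorem good_line (h : AG B Γ) (Dp : Finset E) (w : E) (hpos : ∀ z ∈ Dp, 0 < ⟪w, z⟫)
    (hsub : Dp ⊆ (3 + 1) • B) (ks : E) (keys : Finset E) (hks : ks ∈ keys)
    (hkeys : keys = Dp.image (key w))
    (hksmax : ∀ a ∈ keys, (Dp.filter fun z => key w z = a).card ≤ (Dp.filter fun z => key w z = ks).card)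
    (δ : E → ℝ) (hδ : ∀ a, 0 ≤ δ a) (s t n : ℝ) (hs0 : 0 < s) (ht : 0 < t) (hn0 : 0 < n) (E1 : ℕ)
    (hDD : ((Dp + Dp).card : ℝ) ≤ Γ ^ E1 * n)
    (hsum : n * s / (256 * t) ≤
      ∑ a ∈ keys.erase ks, ((Dp.filter fun z => key w z = a).card : ℝ) * δ a) :
    ∃ a ∈ keys, s * (2 : ℝ) ^ Nat.log 2 (Dp.filter fun z => key w z = a).card ≤
      Γ ^ (E1 + 5 + 11) * t * δ a := by
  classical
  have hG := h.pos
  set e2 := E1 + 5 + 11 with he2
  let F : E → Finset E := fun a => Dp.filter fun z => key w z = a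
  have hkey0 : ∀ a ∈ keys, ∃ z, z ∈ F a := by
    intro a ha
    rw [hkeys] at ha
    obtain ⟨z, hz, rfl⟩ := mem_image.1 ha
    exact ⟨z, mem_filter.2 ⟨hz, rfl⟩⟩
  set L0 := Nat.log 2 ((3 + 1) • B).card + 1 with hL0
  have hL0b : (L0 : ℝ) ≤ Γ ^ 5 := by
    have hpos : ((3 + 1) • B).card ≠ 0 := (Finset.card_pos.2 ⟨0, h.zero_mem_nsmul _⟩).ne'
    have h1 : ((2 : ℕ) : ℝ) ^ Nat.log 2 ((3 + 1) • B).card ≤ (((3 + 1) • B).card : ℝ) := by
      exact_mod_cast Nat.pow_log_le_self 2 hpos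
    have h2 := Real.log_le_log (by positivity) h1
    rw [Real.log_pow] at h2
    push_cast at h2
    have h3 := h.log_nsmul_le 3
    have h4 : (Nat.log 2 ((3 + 1) • B).card : ℝ) * 0.5 ≤
        (Nat.log 2 ((3 + 1) • B).card : ℝ) * Real.log 2 :=
      mul_le_mul_of_nonneg_left (by linarith [Real.log_two_gt_d9]) (Nat.cast_nonneg _)
    have h5 : 2 * Γ ^ (3 + 1) ≤ Γ ^ 5 := by
      rw [pow_succ' Γ 4]; exact mul_le_mul_of_nonneg_right h.two_le (by positivity)
    rw [hL0]; push_cast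
    linarith
  by_contra hall
  push Not at hall
  have hgroup : ∀ i ∈ range L0,
      ∑ a ∈ (keys.erase ks).filter (fun a => Nat.log 2 (F a).card = i), ((F a).card : ℝ) * δ a ≤
        2 * s * (Γ ^ E1 * n) / (Γ ^ e2 * t) := by
    intro i _
    set S := (keys.erase ks).filter fun a => Nat.log 2 (F a).card = i with hS
    rcases S.eq_empty_or_nonempty with h0 | ⟨a₀, ha₀⟩
    · rw [h0, sum_empty]; positivity
    have hlow : ∀ a ∈ keys, 2 ^ Nat.log 2 (F a).card ≤ (F a).card := fun a ha =>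
      Nat.pow_log_le_self 2 (Finset.card_pos.2 (hkey0 a ha)).ne'
    have hp := pairs Dp w hpos (insert ks S) (2 ^ i) (by
      intro a ha
      rcases mem_insert.1 ha with rfl | ha
      · obtain ⟨h1, h2⟩ := mem_filter.1 ha₀
        exact le_trans (h2 ▸ hlow a₀ (mem_erase.1 h1).2) (hksmax a₀ (mem_erase.1 h1).2)
      · obtain ⟨h1, h2⟩ := mem_filter.1 ha
        exact h2 ▸ hlow a (mem_erase.1 h1).2)
    rw [card_insert_of_notMem (fun hm => (mem_erase.1 (mem_filter.1 hm).1).1 rfl), Nat.add_sub_cancel] at hp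
    have hp' : (S.card : ℝ) * ((2 : ℝ) ^ i) ^ 2 ≤ Γ ^ E1 * n :=
      le_trans (by exact_mod_cast hp) hDD
    calc ∑ a ∈ S, ((F a).card : ℝ) * δ a
        ≤ ∑ _a ∈ S, 2 * s * ((2 : ℝ) ^ i) ^ 2 / (Γ ^ e2 * t) := by
          refine sum_le_sum fun a ha => ?_
          obtain ⟨h1, h2⟩ := mem_filter.1 ha
          have h3 : ((F a).card : ℝ) ≤ 2 * (2 : ℝ) ^ i := by
            have := (Nat.lt_pow_succ_log_self (by norm_num : 1 < 2) (F a).card).le
            rw [h2, pow_succ'] at this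
            exact_mod_cast this
          have h4 := hall a (mem_erase.1 h1).2
          rw [h2] at h4
          rw [le_div_iff₀ (by positivity)]
          calc ((F a).card : ℝ) * δ a * (Γ ^ e2 * t)
              ≤ 2 * (2 : ℝ) ^ i * (Γ ^ e2 * t * δ a) := by
                rw [show ((F a).card : ℝ) * δ a * (Γ ^ e2 * t) = ((F a).card : ℝ) * (Γ ^ e2 * t * δ a) by ring]
                exact mul_le_mul_of_nonneg_right h3 (mul_nonneg (by positivity) (hδ a))
            _ ≤ 2 * (2 : ℝ) ^ i * (s * (2 : ℝ) ^ i) := mul_le_mul_of_nonneg_left h4.le (by positivity)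
            _ = _ := by ring
      _ = 2 * s * ((S.card : ℝ) * ((2 : ℝ) ^ i) ^ 2) / (Γ ^ e2 * t) := by
          rw [sum_const, nsmul_eq_mul]; ring
      _ ≤ _ := div_le_div_of_nonneg_right (mul_le_mul_of_nonneg_left hp' (by linarith)) (by positivity)
  have htot := hsum
  rw [← sum_fiberwise_of_maps_to (g := fun a => Nat.log 2 (F a).card) (t := range L0) fun a ha =>
    mem_range.2 (Nat.lt_succ_of_le (Nat.log_mono_right ((card_le_card ((filter_subset _ _).trans hsub)))))] at htot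
  have h1 := htot.trans (sum_le_sum hgroup)
  rw [sum_const, card_range, nsmul_eq_mul] at h1
  have h2 : (L0 : ℝ) * (2 * s * (Γ ^ E1 * n) / (Γ ^ e2 * t)) ≤
      Γ ^ 5 * (2 * s * (Γ ^ E1 * n) / (Γ ^ e2 * t)) := mul_le_mul_of_nonneg_right hL0b (by positivity)
  have e : Γ ^ 5 * (2 * s * (Γ ^ E1 * n) / (Γ ^ e2 * t)) = 2 * (s * n / t) / Γ ^ 11 := by
    rw [he2, pow_add, pow_add]; field_simp
  have h11 : (1024 : ℝ) < Γ ^ 11 := lt_of_lt_of_le (by norm_num) (h.two_pow_le 11)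
  have hpos : 0 < s * n / t := by positivity
  have h3 : 2 * (s * n / t) / Γ ^ 11 < s * n / t / 256 := by
    rw [div_lt_div_iff₀ (by positivity) (by norm_num)]
    have := mul_lt_mul_of_pos_left h11 hpos
    linarith
  have e2 : n * s / (256 * t) = s * n / t / 256 := by ring
  linarith

/-- Few multiples of a normal whose small multiples are few. -/
theorem fibre_small (h : AG B Γ) (R : Finset E) (hRne : R.Nonempty) (r : ℕ)
    (hr : ∀ u ∈ R, (B.image fun x => ⟪u, x⟫).card ≤ r) (t : ℝ) (ht2 : 2 ≤ t) (htr : t ≤ Γ * r)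
    (w : E) (hw : ∀ z ∈ (ball B R ⊤ (t * R.card) - ball B R ⊤ (t * R.card)).erase 0, ⟪w, z⟫ ≠ 0)
    (a z₀ : E)
    (hz₀ : z₀ ∈ (((ball B R ⊤ (t * R.card) - ball B R ⊤ (t * R.card)).erase 0).filter
      fun z => 0 < ⟪w, z⟫).filter fun z => key w z = a) :
    ((fibre B a).card : ℝ) ≤ Γ ^ (1 + (2 * 1 + 2 * 1 + 12) * 1) * (Γ * r / t) *
      (6 * (2 : ℝ) ^ Nat.log 2 ((((ball B R ⊤ (t * R.card) - ball B R ⊤ (t * R.card)).erase 0).filter
        fun z => 0 < ⟪w, z⟫).filter fun z => key w z = a).card) := by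
  classical
  have hG := h.pos
  set s : ℝ := (R.card : ℝ) with hs
  set D₀ := ball B R ⊤ (t * s)
  set D := (D₀ - D₀).erase 0
  set Dp := D.filter fun z => 0 < ⟪w, z⟫
  set F : E → Finset E := fun a => Dp.filter fun z => key w z = a
  change z₀ ∈ F a at hz₀
  show _ ≤ _ * (6 * (2 : ℝ) ^ Nat.log 2 (F a).card)
  set p : ℝ := (2 : ℝ) ^ Nat.log 2 (F a).card with hp
  have hp1 : 1 ≤ p := one_le_pow₀ one_le_two
  have hs0 : 0 < s := Nat.cast_pos.2 hRne.card_pos
  have hμ2 : 2 * s ≤ t * s := mul_le_mul_of_nonneg_right ht2 hs0.le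
  have hμΛ : t * s ≤ s * (Γ * r) := by
    rw [mul_comm t s]; exact mul_le_mul_of_nonneg_left htr hs0.le
  have hwtB : ∀ z : E, (wt B R z : ℝ) ≤ s * (Γ * r) := h.wt_le R r hr
  have h0D₀ : (0 : E) ∈ D₀ := by
    simp only [D₀, ball, mem_filter]
    refine ⟨h.zero_mem_nsmul 2, Submodule.mem_top, ?_⟩
    rw [h.wt_zero]; linarith
  have hDneg : ∀ z ∈ D, -z ∈ D := by
    intro z hz
    obtain ⟨hz0, hz⟩ := mem_erase.1 hz
    obtain ⟨a, ha, b, hb, rfl⟩ := mem_sub.1 hz
    rw [neg_sub]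
    exact mem_erase.2 ⟨fun e => hz0 (by rw [sub_eq_zero.1 e, sub_self]), sub_mem_sub hb ha⟩
  obtain ⟨hz₀D, hza⟩ := mem_filter.1 hz₀
  have hzpos := (mem_filter.1 hz₀D).2
  have ha0 : a ≠ 0 := by
    intro e
    rw [← smul_key hzpos.ne', hza, e, smul_zero, inner_zero_right] at hzpos
    linarith
  have hFdec : ∀ a, ∀ z ∈ F a, 0 < ⟪w, z⟫ ∧ ⟪w, z⟫ • a = z := by
    intro a z hz
    obtain ⟨hzD, rfl⟩ := mem_filter.1 hz
    have := (mem_filter.1 hzD).2
    exact ⟨this, smul_key this.ne'⟩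
  set Z := Submodule.span ℝ ({a} : Set E) with hZ
  set j := Module.finrank ℝ (Submodule.span ℝ ((fibre B a : Finset E) : Set E)) with hj
  have hj1 : j ≤ 1 := by
    refine le_trans (Submodule.finrank_mono (Submodule.span_le.2 fun x hx => (mem_filter.1 hx).2)) ?_
    exact (finrank_span_singleton ha0).le
  have h1 := h.pack 1 R (fibre B a) (s * (Γ * r)) (t * s) hRne
    (by rw [show (1 + 1 : ℕ) = 2 from rfl]; exact filter_subset _ _) (fun x _ => hwtB x) hμ2 hμΛ j rfl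
  have hcnt : ((ball B R (Submodule.span ℝ ((fibre B a : Finset E) : Set E)) (t * s)).card : ℝ) ≤ 6 * p := by
    have hsub : ball B R (Submodule.span ℝ ((fibre B a : Finset E) : Set E)) (t * s) ⊆
        insert 0 (F a ∪ (F a).image fun z => -z) := by
      intro x hx
      obtain ⟨hx2, hxY, hxw⟩ := mem_filter.1 hx
      rcases eq_or_ne x 0 with rfl | hx0
      · exact mem_insert_self _ _
      refine mem_insert_of_mem ?_
      have hxZ : x ∈ Z := Submodule.span_le.2 (fun y hy => (mem_filter.1 hy).2) hxY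
      obtain ⟨c, hc⟩ := Submodule.mem_span_singleton.1 hxZ
      have hc0 : c ≠ 0 := fun h0 => hx0 (by rw [← hc, h0, zero_smul])
      have hxD : x ∈ D := mem_erase.2 ⟨hx0,
        mem_sub.2 ⟨x, mem_filter.2 ⟨hx2, Submodule.mem_top, hxw⟩, 0, h0D₀, sub_zero x⟩⟩
      have haz : key w a = a := by
        obtain ⟨h1, h2⟩ := hFdec a z₀ hz₀
        have := (mem_filter.1 hz₀).2
        rwa [← h2, key_smul h1.ne'] at this
      have hkx : key w x = a := by rw [← hc, key_smul hc0, haz]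
      rcases (hw x hxD).lt_or_gt with hneg | hpos
      · refine mem_union_right _ (mem_image.2 ⟨-x, mem_filter.2 ⟨mem_filter.2 ⟨hDneg x hxD, ?_⟩, ?_⟩, neg_neg x⟩)
        · rw [inner_neg_right]; linarith
        · rw [← hkx, ← neg_one_smul ℝ x, key_smul (by norm_num)]
      · exact mem_union_left _ (mem_filter.2 ⟨mem_filter.2 ⟨hxD, hpos⟩, hkx⟩)
    have h2 := (card_le_card hsub).trans ((card_insert_le _ _).trans
      (Nat.add_le_add_right ((card_union_le _ _).trans (Nat.add_le_add_left card_image_le _)) 1))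
    have h3 : ((F a).card : ℝ) ≤ 2 * p := by
      have := (Nat.lt_pow_succ_log_self (by norm_num : 1 < 2) (F a).card).le
      rw [pow_succ'] at this
      simp only [hp]; exact_mod_cast this
    calc _ ≤ (((F a).card + (F a).card + 1 : ℕ) : ℝ) := Nat.cast_le.2 h2
      _ ≤ _ := by push_cast; linarith
  rw [show s * (Γ * r) / (t * s) = Γ * r / t by field_simp] at h1
  have hrt : 1 ≤ Γ * r / t := (one_le_div (by linarith)).2 htr
  set P1 := 1 + (2 * 1 + 2 * 1 + 12) * 1 with hP1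
  have hPj : Γ ^ (1 + (2 * 1 + 2 * j + 12) * j) ≤ Γ ^ P1 := h.mono_pow (by rw [hP1]; gcongr)
  refine h1.trans (mul_le_mul (mul_le_mul hPj ?_ (by positivity) (by positivity)) hcnt
    (Nat.cast_nonneg _) (by positivity))
  exact le_of_le_of_eq (pow_le_pow_right₀ hrt hj1) (pow_one _)

/-- Collisions of small elements, for any half of the forms. -/
theorem mass (h : AG B Γ) (R : Finset E) (hRne : R.Nonempty) (t : ℝ) (ht2 : 2 ≤ t)
    (hn128 : 128 * t ≤ ((ball B R ⊤ (t * R.card)).card : ℝ)) (w : E)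
    (hw : ∀ z ∈ (ball B R ⊤ (t * R.card) - ball B R ⊤ (t * R.card)).erase 0, ⟪w, z⟫ ≠ 0)
    (R' : Finset E) (hsub : R' ⊆ R) (hs' : (R.card : ℝ) ≤ 2 * (R'.card : ℝ)) :
    ((ball B R ⊤ (t * R.card)).card : ℝ) * R.card / (256 * t) ≤
      ∑ z ∈ ((ball B R ⊤ (t * R.card) - ball B R ⊤ (t * R.card)).erase 0).filter (fun z => 0 < ⟪w, z⟫),
        ((R'.filter fun u => ⟪u, z⟫ = 0).card : ℝ) := by
  classical
  set s : ℝ := (R.card : ℝ) with hs
  set D₀ := ball B R ⊤ (t * s)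
  set n : ℝ := (D₀.card : ℝ)
  set D := (D₀ - D₀).erase 0 with hD
  set Dp := D.filter fun z => 0 < ⟪w, z⟫
  have hs0 : 0 < s := Nat.cast_pos.2 hRne.card_pos
  have hn0 : 0 < n := by linarith
  have hD₀ne : D₀.Nonempty := Finset.card_pos.1 (Nat.cast_pos.1 hn0)
  have hDneg : ∀ z ∈ D, -z ∈ D := by
    intro z hz
    obtain ⟨hz0, hz⟩ := mem_erase.1 hz
    obtain ⟨a, ha, b, hb, rfl⟩ := mem_sub.1 hz
    rw [neg_sub]
    exact mem_erase.2 ⟨fun e => hz0 (by rw [sub_eq_zero.1 e, sub_self]), sub_mem_sub hb ha⟩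
  have hR'ne : R'.Nonempty := Finset.card_pos.1 (Nat.cast_pos.1 (show (0:ℝ) < R'.card by linarith))
  have hc := h.collide R' D₀ (t * s) (by rw [← two_nsmul]; exact filter_subset _ _) hD₀ne hR'ne
    fun z hz => le_trans (Nat.cast_le.2 (sum_le_sum_of_subset hsub)) (mem_filter.1 hz).2.2
  have hsplit : ∑ z ∈ D, ((R'.filter fun u => ⟪u, z⟫ = 0).card : ℝ) =
      2 * ∑ z ∈ Dp, ((R'.filter fun u => ⟪u, z⟫ = 0).card : ℝ) := by
    rw [← sum_filter_add_sum_filter_not D (fun z => 0 < ⟪w, z⟫), two_mul]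
    congr 1
    refine sum_nbij' (fun z => -z) (fun z => -z) ?_ ?_ ?_ ?_ ?_
    · intro z hz
      obtain ⟨hzD, hz'⟩ := mem_filter.1 hz
      refine mem_filter.2 ⟨hDneg z hzD, ?_⟩
      rw [inner_neg_right]
      have := lt_of_le_of_ne (not_lt.1 hz') (hw z hzD)
      linarith
    · intro z hz
      obtain ⟨hzD, hz'⟩ := mem_filter.1 hz
      refine mem_filter.2 ⟨hDneg z hzD, ?_⟩
      rw [inner_neg_right]
      linarith
    · intro z _; exact neg_neg z
    · intro z _; exact neg_neg z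
    · intro z _; simp [inner_neg_right]
  rw [← hD, hsplit] at hc
  have h1 : n * (s / 2) ^ 2 ≤ n * (R'.card : ℝ) ^ 2 :=
    mul_le_mul_of_nonneg_left (pow_le_pow_left₀ (by linarith) (by linarith) 2) hn0.le
  have hs'' : (R'.card : ℝ) ≤ s := Nat.cast_le.2 (card_le_card hsub)
  have h2 : n * s ≤ 64 * t * (s + 2 * ∑ z ∈ Dp, ((R'.filter fun u => ⟪u, z⟫ = 0).card : ℝ)) := by
    refine le_of_mul_le_mul_left ?_ hs0
    have h4 := h1.trans (hc.trans (mul_le_mul_of_nonneg_left (add_le_add_left hs'' _) (by positivity)))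
    linarith
  have h3 : 128 * t * s ≤ n * s := mul_le_mul_of_nonneg_right hn128 hs0.le
  rw [div_le_iff₀ (by positivity)]
  linarith

theorem finish (h : AG B Γ) (a : E) (r : ℕ) (hr0 : 1 ≤ (r : ℝ)) (t : ℝ) (ht : 0 < t) (s : ℝ)
    (hs0 : 0 < s) (p : ℝ) (hp1 : 1 ≤ p) (δ : ℝ) (hδ : 0 ≤ δ) (e2 C : ℕ)
    (hC : 1 + (2 * 1 + 2 * 1 + 12) * 1 + 1 + e2 + 3 ≤ C)
    (hgood : s * p ≤ Γ ^ e2 * t * δ) (f : ℝ)
    (hf : f ≤ Γ ^ (1 + (2 * 1 + 2 * 1 + 12) * 1) * (Γ * r / t) * (6 * p)) :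
    s ≤ Γ ^ C * t * δ ∧ s * f ≤ Γ ^ C * r * δ := by
  have hG := h.pos
  set P1 := 1 + (2 * 1 + 2 * 1 + 12) * 1
  refine ⟨?_, ?_⟩
  · calc s ≤ s * p := le_mul_of_one_le_right hs0.le hp1
      _ ≤ _ := hgood.trans (mul_le_mul_of_nonneg_right
          (mul_le_mul_of_nonneg_right (h.mono_pow (by omega)) ht.le) hδ)
  · calc s * f ≤ s * (Γ ^ P1 * (Γ * r / t) * (6 * p)) := mul_le_mul_of_nonneg_left hf hs0.le
      _ = 6 * Γ ^ (P1 + 1) * r / t * (s * p) := by rw [pow_succ]; ring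
      _ ≤ 6 * Γ ^ (P1 + 1) * r / t * (Γ ^ e2 * t * δ) := mul_le_mul_of_nonneg_left hgood (by positivity)
      _ = 6 * Γ ^ (P1 + 1 + e2) * r * δ := by rw [pow_add Γ (P1 + 1)]; field_simp
      _ ≤ _ := by
          refine mul_le_mul_of_nonneg_right (mul_le_mul_of_nonneg_right ?_ (by linarith)) hδ
          calc 6 * Γ ^ (P1 + 1 + e2) ≤ Γ ^ 3 * Γ ^ (P1 + 1 + e2) :=
                mul_le_mul_of_nonneg_right (le_trans (by norm_num) (h.two_pow_le 3)) (by positivity)
            _ ≤ _ := by rw [← pow_add]; exact h.mono_pow (by omega)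

/-- A hyperplane catching many forms of small image. -/
theorem key_lemma (d : ℕ) (hd : 1 ≤ d) : ∃ C : ℕ, ∀ (E : Type*) [NormedAddCommGroup E]
    [InnerProductSpace ℝ E] [FiniteDimensional ℝ E] [DecidableEq E], Module.finrank ℝ E = d →
    ∀ (B R : Finset E) (Γ : ℝ) (r : ℕ), AG B Γ → R.Nonempty → R ⊆ B → 1 ≤ r →
      (∀ u ∈ R, (B.image fun x => ⟪u, x⟫).card ≤ r) → Submodule.span ℝ (R : Set E) = ⊤ →
      Γ ^ C * r ≤ B.card →
      ∃ (z : E) (μ : ℝ), z ≠ 0 ∧ 1 ≤ μ ∧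
        (R.card : ℝ) ≤ Γ ^ C * μ * ((R.filter fun u => ⟪u, z⟫ = 0).card : ℝ) ∧
        (R.card : ℝ) * (fibre B z).card ≤ Γ ^ C * r * ((R.filter fun u => ⟪u, z⟫ = 0).card : ℝ) ∧
        μ ^ (d - 1) * B.card ≤ Γ ^ C * (r : ℝ) ^ d := by
  classical
  set e0 := (12 + 2 * d) * d + d + 7 with he0
  set E1 := 7 + (2 * 7 + 2 * d + 12) * d + 4 * d with hE1
  set e2 := E1 + 5 + 11 with he2
  refine ⟨e0 + e2 + 1 + (2 * 1 + 2 * 1 + 12) * 1 + 4, ?_⟩
  intro E _ _ _ _ hfr B R Γ r h hRne hRB hr1 hr hspan hbig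
  set C := e0 + e2 + 1 + (2 * 1 + 2 * 1 + 12) * 1 + 4 with hC
  have hG := h.pos
  have hG1 := h.one_le
  set s : ℝ := (R.card : ℝ) with hs
  have hs0 : 0 < s := Nat.cast_pos.2 hRne.card_pos
  have hr0 : (1 : ℝ) ≤ r := Nat.one_le_cast.2 hr1
  have hM0 : (0 : ℝ) < B.card := Nat.cast_pos.2 h.card_pos
  have hMr : (B.card : ℝ) ≤ (r : ℝ) ^ d := by
    have := card_le_pow B R r hr hspan
    rw [hfr] at this
    exact_mod_cast this
  have hd2 : 2 ≤ d := by
    by_contra hlt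
    have hd1 : d = 1 := by omega
    rw [hd1, pow_one] at hMr
    have : (2 : ℝ) * r ≤ Γ ^ C * r := mul_le_mul_of_nonneg_right
      (h.two_le.trans (le_self_pow₀ hG1 (by omega))) (by linarith)
    linarith
  obtain ⟨k, hdk⟩ : ∃ k, d = k + 1 := ⟨d - 1, by omega⟩
  have hk0 : k ≠ 0 := by omega
  -- the scale
  set Q : ℝ := Γ ^ e0 * (r : ℝ) ^ d / B.card with hQ
  have hQ0 : 0 ≤ Q := by positivity
  set t : ℝ := Q ^ ((k : ℝ)⁻¹) with ht
  have htk : t ^ k = Q := Real.rpow_inv_natCast_pow hQ0 hk0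
  have ht0 : 0 ≤ t := Real.rpow_nonneg hQ0 _
  have ht2 : 2 ≤ t := by
    refine le_of_pow_le_pow_left₀ hk0 ht0 ?_
    rw [htk, hQ, le_div_iff₀ hM0]
    exact mul_le_mul ((h.two_pow_le k).trans (h.mono_pow (by omega))) hMr hM0.le (by positivity)
  have htr : t ≤ Γ * r := by
    refine le_of_pow_le_pow_left₀ hk0 (by positivity) ?_
    rw [htk, hQ, div_le_iff₀ hM0, mul_pow, hdk, pow_succ]
    have h1 : Γ ^ e0 * (r : ℝ) ≤ B.card :=
      le_trans (mul_le_mul_of_nonneg_right (h.mono_pow (by omega)) (by linarith)) hbig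
    calc Γ ^ e0 * ((r : ℝ) ^ k * r) = (r : ℝ) ^ k * (Γ ^ e0 * r) := by ring
      _ ≤ (r : ℝ) ^ k * B.card := mul_le_mul_of_nonneg_left h1 (by positivity)
      _ ≤ Γ ^ k * (r : ℝ) ^ k * B.card := by
          rw [mul_assoc]
          exact le_mul_of_one_le_left (by positivity) (one_le_pow₀ hG1)
  set D₀ : Finset E := ball B R ⊤ (t * s) with hD₀
  set n : ℝ := (D₀.card : ℝ) with hn
  have hwtB : ∀ z : E, (wt B R z : ℝ) ≤ s * (Γ * r) := h.wt_le R r hr
  have hμ2 : 2 * s ≤ t * s := mul_le_mul_of_nonneg_right ht2 hs0.le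
  have hμΛ : t * s ≤ s * (Γ * r) := by
    rw [mul_comm t s]; exact mul_le_mul_of_nonneg_left htr hs0.le
  have hball : ∀ Y : Submodule ℝ E, ((ball B R Y (t * s)).card : ℝ) ≤ n := fun Y =>
    Nat.cast_le.2 (card_le_card (monotone_filter_right _ fun _ _ hv => ⟨Submodule.mem_top, hv.2⟩))
  have hn128 : 128 * t ≤ n := many_small h R hRne hRB r hr hspan d hfr k hdk t (by linarith) htr ht2 (by rw [htk])
  have hn0 : 0 < n := by linarith
  have hD₀ne : D₀.Nonempty := Finset.card_pos.1 (Nat.cast_pos.1 hn0)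
  have h0D₀ : (0 : E) ∈ D₀ := by
    simp only [hD₀, ball, mem_filter]
    refine ⟨h.zero_mem_nsmul 2, Submodule.mem_top, ?_⟩
    rw [h.wt_zero]; nlinarith
  set D := (D₀ - D₀).erase 0 with hD
  obtain ⟨w, hw⟩ := exists_generic D (notMem_erase _ _)
  have hDneg : ∀ z ∈ D, -z ∈ D := by
    intro z hz
    obtain ⟨hz0, hz⟩ := mem_erase.1 hz
    obtain ⟨a, ha, b, hb, rfl⟩ := mem_sub.1 hz
    rw [neg_sub]
    exact mem_erase.2 ⟨fun e => hz0 (by rw [sub_eq_zero.1 e, sub_self]), sub_mem_sub hb ha⟩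
  set Dp := D.filter fun z => 0 < ⟪w, z⟫ with hDp
  let δ : E → ℝ := fun z => ((R.filter fun u => ⟪u, z⟫ = 0).card : ℝ)
  let F : E → Finset E := fun a => Dp.filter fun z => key w z = a
  have hFdec : ∀ a, ∀ z ∈ F a, 0 < ⟪w, z⟫ ∧ ⟪w, z⟫ • a = z := by
    intro a z hz
    obtain ⟨hzD, rfl⟩ := mem_filter.1 hz
    have := (mem_filter.1 hzD).2
    exact ⟨this, smul_key this.ne'⟩
  -- collisions
  have hmass : ∀ R' : Finset E, R' ⊆ R → s ≤ 2 * (R'.card : ℝ) →
      n * s / (256 * t) ≤ ∑ z ∈ Dp, ((R'.filter fun u => ⟪u, z⟫ = 0).card : ℝ) :=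
    fun R' hsub hs' => mass h R hRne t ht2 hn128 w hw R' hsub hs'
  have hDpne : Dp.Nonempty := by
    by_contra hne
    rw [not_nonempty_iff_eq_empty] at hne
    have := hmass R Subset.rfl (by linarith)
    rw [hne, sum_empty] at this
    have : 0 < n * s / (256 * t) := by positivity
    linarith
  set keys := Dp.image (key w) with hkeys
  obtain ⟨ks, hks, hksmax⟩ := exists_max_image keys (fun a => (F a).card) (hDpne.image _)
  have hkey0 : ∀ a ∈ keys, a ≠ 0 ∧ ∃ z, z ∈ F a := by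
    intro a ha
    obtain ⟨z, hz, rfl⟩ := mem_image.1 ha
    refine ⟨?_, z, mem_filter.2 ⟨hz, rfl⟩⟩
    intro h0
    have := (mem_filter.1 hz).2
    rw [← smul_key this.ne', h0, smul_zero, inner_zero_right] at this
    linarith
  by_cases hbigdeg : s ≤ 2 * δ ks
  · refine ⟨ks, t, (hkey0 ks hks).1, by linarith, ?_, ?_, ?_⟩
    · have : (2 : ℝ) ≤ Γ ^ C * t := le_trans ht2 (le_mul_of_one_le_left ht0 (one_le_pow₀ hG1))
      exact hbigdeg.trans (mul_le_mul_of_nonneg_right this (Nat.cast_nonneg _))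
    · obtain ⟨u, huR, hu⟩ : ∃ u ∈ R, ⟪u, ks⟫ ≠ 0 := by
        by_contra hall
        push Not at hall
        refine (hkey0 ks hks).1 (ext_inner_left ℝ fun v => ?_)
        rw [inner_zero_right]
        have hv : v ∈ Submodule.span ℝ (R : Set E) := hspan.symm ▸ Submodule.mem_top
        induction hv using Submodule.span_induction with
        | mem x hx => exact hall x hx
        | zero => exact inner_zero_left _
        | add x y _ _ hx hy => rw [inner_add_left, hx, hy, add_zero]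
        | smul c x _ hx => rw [real_inner_smul_left, hx, mul_zero]
      have hf : ((fibre B ks).card : ℝ) ≤ Γ * (Γ * r) := fibre_inj h u ks hu r (hr u huR)
      have h3 : Γ * Γ * 2 ≤ Γ ^ C := by
        refine le_trans ?_ (h.mono_pow (show 3 ≤ C by omega))
        rw [pow_succ Γ 2, sq]
        exact mul_le_mul_of_nonneg_left h.two_le (mul_nonneg hG.le hG.le)
      calc s * ((fibre B ks).card : ℝ) ≤ (2 * δ ks) * (Γ * (Γ * r)) :=
            mul_le_mul hbigdeg hf (Nat.cast_nonneg _) (by linarith)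
        _ = Γ * Γ * 2 * r * δ ks := by ring
        _ ≤ _ := by
            refine mul_le_mul_of_nonneg_right (mul_le_mul_of_nonneg_right h3 (by linarith)) (Nat.cast_nonneg _)
    · rw [show d - 1 = k by omega, htk, hQ, div_mul_cancel₀ _ hM0.ne']
      exact mul_le_mul_of_nonneg_right (h.mono_pow (by omega)) (by positivity)
  -- many collisions off the richest line
  set R' := R.filter fun u => ¬ ⟪u, ks⟫ = 0 with hR'
  have hR'card : s ≤ 2 * (R'.card : ℝ) := by
    have hsplit := card_filter_add_card_filter_not (s := R) (fun u => ⟪u, ks⟫ = 0)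
    have : δ ks + (R'.card : ℝ) = s := by simp only [δ, hs, hR']; exact_mod_cast hsplit
    linarith [not_le.1 hbigdeg]
  have hsum : n * s / (256 * t) ≤ ∑ a ∈ keys.erase ks, ((F a).card : ℝ) * δ a := by
    refine (hmass R' (filter_subset _ _) hR'card).trans ?_
    rw [← sum_fiberwise_of_maps_to (g := key w) (t := keys) fun z hz => mem_image_of_mem _ hz]
    rw [← sum_erase_add _ _ hks]
    have hzero : ∑ z ∈ Dp.filter (fun z => key w z = ks), ((R'.filter fun u => ⟪u, z⟫ = 0).card : ℝ) = 0 := by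
      refine sum_eq_zero fun z hz => ?_
      rw [Nat.cast_eq_zero, card_eq_zero, filter_eq_empty_iff]
      intro u hu h0
      obtain ⟨h1, h2⟩ := hFdec ks z hz
      rw [← h2, real_inner_smul_right, mul_eq_zero] at h0
      exact (mem_filter.1 hu).2 (h0.resolve_left h1.ne')
    rw [hzero, add_zero]
    refine sum_le_sum fun a _ => ?_
    rw [← nsmul_eq_mul, ← sum_const]
    refine sum_le_sum fun z hz => Nat.cast_le.2 (card_le_card fun u hu => ?_)
    obtain ⟨h1, h2⟩ := hFdec a z hz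
    obtain ⟨hu', h0⟩ := mem_filter.1 hu
    rw [← h2, real_inner_smul_right, mul_eq_zero] at h0
    exact mem_filter.2 ⟨(mem_filter.1 hu').1, h0.resolve_left h1.ne'⟩
  have hsub4 : D₀ - D₀ ⊆ (3 + 1) • B := diff_subset h D₀ (filter_subset _ _)
  have hDD : ((Dp + Dp).card : ℝ) ≤ Γ ^ E1 * n :=
    sums_small h R hRne d hfr t ht2 Dp ((filter_subset _ _).trans (erase_subset _ _))
  have hclass : ∃ a ∈ keys, s * (2 : ℝ) ^ Nat.log 2 (F a).card ≤ Γ ^ e2 * t * δ a :=
    good_line h Dp w (fun z hz => (mem_filter.1 hz).2)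
      ((filter_subset _ _).trans ((erase_subset _ _).trans hsub4)) ks keys hks hkeys hksmax δ
      (fun _ => Nat.cast_nonneg _) s t n hs0 (by linarith) hn0 E1 hDD hsum
  obtain ⟨a, ha, hgood⟩ := hclass
  obtain ⟨ha0, z₀, hz₀⟩ := hkey0 a ha
  set p : ℝ := (2 : ℝ) ^ Nat.log 2 (F a).card with hp
  have hp1 : 1 ≤ p := one_le_pow₀ one_le_two
  refine ⟨a, t, ha0, by linarith, ?_, ?_, ?_⟩
  · exact (finish h a r hr0 t (by linarith) s hs0 p hp1 (δ a) (Nat.cast_nonneg _) e2 C (by omega)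
      hgood _ (fibre_small h R hRne r hr t ht2 htr w hw a z₀ hz₀)).1
  · exact (finish h a r hr0 t (by linarith) s hs0 p hp1 (δ a) (Nat.cast_nonneg _) e2 C (by omega)
      hgood _ (fibre_small h R hRne r hr t ht2 htr w hw a z₀ hz₀)).2
  · rw [show d - 1 = k by omega, htk, hQ, div_mul_cancel₀ _ hM0.ne']
    exact mul_le_mul_of_nonneg_right (h.mono_pow (by omega)) (by positivity)

end Vale.Agent.Doubling.AllDim
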