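import Vale.Agent.Doubling.AllDim.Basic

/-!
The packing lemma: random sampling of hyperplanes and the Sauer-Shelah bound on sign patterns.
-/

open Finset
open scoped Pointwise RealInnerProductSpace

namespace Vale.Agent.Doubling.AllDim

set_option linter.unusedSectionVars false

variable {E : Type*} [NormedAddCommGroup E] [InnerProductSpace ℝ E] [FiniteDimensional ℝ E]

/-- A spanner with all coefficients at most one. -/
theorem spanner (X : Finset E) :
    ∃ f : Fin (Module.finrank ℝ (Submodule.span ℝ (X : Set E))) → E, (∀ i, f i ∈ X) ∧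
      ∀ x ∈ X, ∀ u : E, |⟪u, x⟫| ≤ ∑ i, |⟪u, f i⟫| := by
  classical
  set Y := Submodule.span ℝ (X : Set E) with hY
  set j := Module.finrank ℝ Y
  set b := Module.finBasis ℝ Y
  let ι : X → Y := fun x => ⟨x.1, Submodule.subset_span x.2⟩
  obtain ⟨g, hgX, hg, hgi⟩ := Submodule.exists_fun_fin_finrank_span_eq ℝ (X : Set E)
  have hli : LinearIndependent ℝ fun i => ι ⟨g i, hgX i⟩ := by
    refine LinearIndependent.of_comp Y.subtype ?_
    exact hgi
  have hne : b.det (fun i => ι ⟨g i, hgX i⟩) ≠ 0 :=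
    ((Module.Basis.is_basis_iff_det b).1 ⟨hli,
      hli.span_eq_top_of_card_eq_finrank' (Fintype.card_fin _)⟩).ne_zero
  have : Nonempty (Fin j → X) := ⟨fun i => ⟨g i, hgX i⟩⟩
  obtain ⟨F, -, hF⟩ := exists_max_image (univ : Finset (Fin j → X))
    (fun F => |b.det (ι ∘ F)|) univ_nonempty
  have hpos : 0 < |b.det (ι ∘ F)| :=
    lt_of_lt_of_le (abs_pos.2 hne) (hF (fun i => ⟨g i, hgX i⟩) (mem_univ _))
  obtain ⟨hFi, hFs⟩ := (Module.Basis.is_basis_iff_det b).2
    (isUnit_iff_ne_zero.2 (abs_pos.1 hpos) : IsUnit (b.det (ι ∘ F)))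
  refine ⟨fun i => (F i).1, fun i => (F i).2, fun x hx u => ?_⟩
  obtain ⟨c, hc⟩ := (Submodule.mem_span_range_iff_exists_fun ℝ).1
    (hFs.symm ▸ Submodule.mem_top : ι ⟨x, hx⟩ ∈ Submodule.span ℝ (Set.range (ι ∘ F)))
  have hc1 : ∀ i, |c i| ≤ 1 := by
    intro i
    have h1 := hF (Function.update F i ⟨x, hx⟩) (mem_univ _)
    rw [Function.comp_update, ← hc] at h1
    have h2 : b.det (Function.update (ι ∘ F) i (∑ k, c k • (ι ∘ F) k)) = c i * b.det (ι ∘ F) := by
      rw [AlternatingMap.map_update_sum, Finset.sum_eq_single i]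
      · rw [AlternatingMap.map_update_smul, Function.update_eq_self, smul_eq_mul]
      · intro k _ hk
        rw [AlternatingMap.map_update_smul, AlternatingMap.map_update_self _ _ (Ne.symm hk),
          smul_zero]
      · simp
    rw [h2, abs_mul] at h1
    exact le_of_mul_le_mul_right (by linarith) hpos
  have hx' : x = ∑ i, c i • (F i).1 := by
    have := congrArg Subtype.val hc
    simpa [ι] using this.symm
  rw [hx', inner_sum]
  refine (abs_sum_le_sum_abs _ _).trans (sum_le_sum fun i _ => ?_)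
  rw [real_inner_smul_right, abs_mul]
  exact mul_le_of_le_one_left (abs_nonneg _) (hc1 i)

theorem sum_choose_le (q : ℕ) : ∀ j, ∑ k ∈ Iic j, q.choose k ≤ (q + 1) ^ j := by
  intro j
  induction j with
  | zero => simp [show Iic 0 = ({0} : Finset ℕ) by ext; simp]
  | succ j ih =>
    rw [← Finset.Iio_insert, sum_insert (by simp)]
    have e : Iio (j + 1) = Iic j := by ext; simp
    rw [e]
    have h1 : q.choose (j + 1) ≤ q ^ (j + 1) := Nat.choose_le_pow q (j + 1)
    have h2 : q ^ (j + 1) ≤ q * (q + 1) ^ j := by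
      rw [pow_succ']; exact Nat.mul_le_mul_left _ (Nat.pow_le_pow_left (Nat.le_succ q) j)
    have e2 : (q + 1) ^ (j + 1) = (q + 1) ^ j + q * (q + 1) ^ j := by ring
    omega

/-- Affine forms on a `j`-dimensional set have at most `(q+1)^j` sign patterns. -/
theorem pattern_count (X : Finset E) (q : ℕ) (u : Fin q → E) (v : Fin q → ℝ) :
    (X.image fun x => (univ : Finset (Fin q)).filter fun i => v i ≤ ⟪u i, x⟫).card ≤
      (q + 1) ^ Module.finrank ℝ (Submodule.span ℝ (X : Set E)) := by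
  classical
  set Y := Submodule.span ℝ (X : Set E) with hY
  set F := X.image fun x => (univ : Finset (Fin q)).filter fun i => v i ≤ ⟪u i, x⟫ with hF
  have hvc : F.vcDim ≤ Module.finrank ℝ Y := by
    refine Finset.sup_le fun S hS => ?_
    rw [mem_shatterer] at hS
    let L : S → Y →ₗ[ℝ] ℝ := fun i => (innerₛₗ ℝ (u i.1)).comp Y.subtype
    by_contra hlt
    have hdep : ¬ LinearIndependent ℝ L := fun hL => by
      have := hL.fintype_card_le_finrank
      rw [Subspace.dual_finrank_eq, Fintype.card_coe] at this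
      exact hlt this
    obtain ⟨c, hc, i0, hi0⟩ := Fintype.not_linearIndependent_iff.1 hdep
    have hzero : ∀ x ∈ X, ∑ i, c i * ⟪u i.1, x⟫ = 0 := fun x hx => by
      have := congrArg (fun f : Y →ₗ[ℝ] ℝ => f ⟨x, Submodule.subset_span hx⟩) hc
      simpa [L, LinearMap.sum_apply] using this
    have key : ∀ g : S → Prop, ∃ x ∈ X, ∀ i : S, v i.1 ≤ ⟪u i.1, x⟫ ↔ g i := by
      intro g
      obtain ⟨w, hw, hwS⟩ := hS (t := S.filter fun i => ∃ h : i ∈ S, g ⟨i, h⟩) (filter_subset _ _)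
      obtain ⟨x, hx, rfl⟩ := mem_image.1 hw
      refine ⟨x, hx, fun i => ?_⟩
      have := congrArg (fun t => i.1 ∈ t) hwS
      simpa [i.2] using this
    set K := ∑ i, c i * v i.1 with hK
    obtain ⟨x, hx, hxg⟩ := key fun i => 0 < c i
    obtain ⟨y, hy, hyg⟩ := key fun i => c i < 0
    have e : ∀ z ∈ X, ∑ i, c i * (⟪u i.1, z⟫ - v i.1) = -K := fun z hz => by
      rw [hK]; simp only [mul_sub, sum_sub_distrib, hzero z hz, zero_sub]
    have p1 : ∀ i, 0 ≤ c i * (⟪u i.1, x⟫ - v i.1) ∧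
        (c i < 0 → 0 < c i * (⟪u i.1, x⟫ - v i.1)) := fun i => by
      rcases lt_trichotomy (c i) 0 with h | h | h
      · have := lt_of_not_ge (fun h' => absurd ((hxg i).1 h') (not_lt.2 h.le))
        exact ⟨(mul_pos_of_neg_of_neg h (by linarith)).le, fun _ => mul_pos_of_neg_of_neg h (by linarith)⟩
      · simp [h]
      · have := (hxg i).2 h
        exact ⟨mul_nonneg h.le (by linarith), fun h' => absurd h' (not_lt.2 h.le)⟩
    have p2 : ∀ i, c i * (⟪u i.1, y⟫ - v i.1) ≤ 0 ∧
        (0 < c i → c i * (⟪u i.1, y⟫ - v i.1) < 0) := fun i => by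
      rcases lt_trichotomy (c i) 0 with h | h | h
      · have := (hyg i).2 h
        exact ⟨mul_nonpos_of_nonpos_of_nonneg h.le (by linarith), fun h' => absurd h' (not_lt.2 h.le)⟩
      · simp [h]
      · have := lt_of_not_ge (fun h' => absurd ((hyg i).1 h') (not_lt.2 h.le))
        exact ⟨(mul_neg_of_pos_of_neg h (by linarith)).le, fun _ => mul_neg_of_pos_of_neg h (by linarith)⟩
    rcases lt_or_gt_of_ne hi0 with h | h
    · have h1 : 0 < -K := e x hx ▸ sum_pos' (fun i _ => (p1 i).1) ⟨i0, mem_univ _, (p1 i0).2 h⟩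
      have h2 : -K ≤ 0 := e y hy ▸ sum_nonpos fun i _ => (p2 i).1
      linarith
    · have h1 : 0 ≤ -K := e x hx ▸ sum_nonneg fun i _ => (p1 i).1
      have h2 : -K < 0 := e y hy ▸ sum_neg' (fun i _ => (p2 i).1) ⟨i0, mem_univ _, (p2 i0).2 h⟩
      linarith
  calc F.card ≤ F.shatterer.card := card_le_card_shatterer F
    _ ≤ ∑ k ∈ Iic F.vcDim, (Fintype.card (Fin q)).choose k := card_shatterer_le_sum_vcDim
    _ ≤ (q + 1) ^ F.vcDim := by rw [Fintype.card_fin]; exact sum_choose_le q _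
    _ ≤ _ := Nat.pow_le_pow_right (Nat.succ_pos q) hvc

variable [DecidableEq E] {B : Finset E} {Γ : ℝ}

/-- A sample separating all pairs which are separated by many of the items. -/
theorem sampling {I α : Type*} (P : Finset I) (hPne : P.Nonempty) (X : Finset α)
    (bit : I → α → Bool) (S : ℝ) (hS : 0 < S) (q : ℕ)
    (hq : (P.card : ℝ) / S * (2 * Real.log X.card + 1) ≤ q) :
    ∃ g : Fin q → I, (∀ i, g i ∈ P) ∧ ∀ x ∈ X, ∀ y ∈ X,
      (∀ i, bit (g i) x = bit (g i) y) → ((P.filter fun p => bit p x ≠ bit p y).card : ℝ) < S := by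
  classical
  rcases X.eq_empty_or_nonempty with rfl | hXne
  · exact ⟨fun _ => hPne.choose, fun _ => hPne.choose_spec, by simp⟩
  set G := Fintype.piFinset fun _ : Fin q => P with hG
  set far := (X ×ˢ X).filter fun z => S ≤ ((P.filter fun p => bit p z.1 ≠ bit p z.2).card : ℝ)
  let bad : α × α → Finset (Fin q → I) := fun z =>
    Fintype.piFinset fun _ : Fin q => P.filter fun p => bit p z.1 = bit p z.2
  have hcard : (far.biUnion bad).card < G.card := by
    have hP0 : (0 : ℝ) < P.card := Nat.cast_pos.2 hPne.card_pos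
    have hX0 : (0 : ℝ) < X.card := Nat.cast_pos.2 hXne.card_pos
    have hb : ∀ z ∈ far, ((bad z).card : ℝ) ≤ (P.card : ℝ) ^ q * Real.exp (-(q * S / P.card)) := by
      intro z hz
      simp only [far, mem_filter] at hz
      simp only [bad, Fintype.card_piFinset, prod_const, card_univ, Fintype.card_fin]
      push_cast
      have hsplit := card_filter_add_card_filter_not (s := P) (fun p => bit p z.1 = bit p z.2)
      have h1 : ((P.filter fun p => bit p z.1 = bit p z.2).card : ℝ) ≤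
          P.card * Real.exp (-(S / P.card)) := by
        refine le_trans ?_ (mul_le_mul_of_nonneg_left (Real.add_one_le_exp _) hP0.le)
        have e : ((P.filter fun p => bit p z.1 = bit p z.2).card : ℝ) +
            ((P.filter fun p => bit p z.1 ≠ bit p z.2).card : ℝ) = P.card := by exact_mod_cast hsplit
        have : (P.card : ℝ) * (-(S / P.card) + 1) = P.card - S := by field_simp; ring
        linarith [hz.2]
      refine (pow_le_pow_left₀ (Nat.cast_nonneg _) h1 q).trans (le_of_eq ?_)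
      rw [mul_pow, ← Real.exp_nat_mul]
      ring_nf
    have hexp : ((X.card : ℝ) * X.card) * Real.exp (-(q * S / P.card)) < 1 := by
      rw [← Real.exp_log (mul_pos hX0 hX0), ← Real.exp_add, Real.exp_lt_one_iff,
        Real.log_mul hX0.ne' hX0.ne']
      have : 2 * Real.log X.card + 1 ≤ q * S / P.card := by
        rw [le_div_iff₀ hP0]
        rw [div_mul_eq_mul_div, div_le_iff₀ hS] at hq
        linarith
      linarith
    have : ((far.biUnion bad).card : ℝ) < G.card := by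
      calc ((far.biUnion bad).card : ℝ) ≤ ∑ z ∈ far, ((bad z).card : ℝ) := by
            exact_mod_cast card_biUnion_le
        _ ≤ far.card * ((P.card : ℝ) ^ q * Real.exp (-(q * S / P.card))) := by
            rw [← nsmul_eq_mul, ← sum_const]; exact sum_le_sum hb
        _ ≤ ((X.card : ℝ) * X.card) * ((P.card : ℝ) ^ q * Real.exp (-(q * S / P.card))) := by
            refine mul_le_mul_of_nonneg_right ?_ (by positivity)
            exact_mod_cast (card_filter_le _ _).trans (card_product X X).le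
        _ = ((X.card : ℝ) * X.card * Real.exp (-(q * S / P.card))) * (P.card : ℝ) ^ q := by ring
        _ < 1 * (P.card : ℝ) ^ q := mul_lt_mul_of_pos_right hexp (pow_pos hP0 q)
        _ = G.card := by simp [hG]
    exact_mod_cast this
  obtain ⟨g, hgG, hg⟩ := exists_mem_notMem_of_card_lt_card hcard
  rw [hG, Fintype.mem_piFinset] at hgG
  refine ⟨g, hgG, fun x hx y hy hb => ?_⟩
  by_contra hS'
  exact hg (mem_biUnion.2 ⟨(x, y), mem_filter.2 ⟨mem_product.2 ⟨hx, hy⟩, not_lt.1 hS'⟩,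
    Fintype.mem_piFinset.2 fun i => mem_filter.2 ⟨hgG i, hb i⟩⟩)

open Classical in
/-- The small elements of `B + B` in the span of `X`. -/
noncomputable def ball (B R : Finset E) (Y : Submodule ℝ E) (μ : ℝ) : Finset E :=
  (2 • B).filter fun z => z ∈ Y ∧ (wt B R z : ℝ) ≤ μ

/-- Packing. -/
theorem AG.pack (h : AG B Γ) (m : ℕ) (R X : Finset E) (Λ μ : ℝ) (hR : R.Nonempty)
    (hXB : X ⊆ (m + 1) • B) (hX : ∀ x ∈ X, (wt B R x : ℝ) ≤ Λ) (hμ : 2 * (R.card : ℝ) ≤ μ)
    (hμΛ : μ ≤ Λ) (j : ℕ) (hj : Module.finrank ℝ (Submodule.span ℝ (X : Set E)) = j) :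
    (X.card : ℝ) ≤ Γ ^ (m + (2 * m + 2 * j + 12) * j) * (Λ / μ) ^ j *
      (ball B R (Submodule.span ℝ (X : Set E)) μ).card := by
  classical
  subst hj
  set Y := Submodule.span ℝ (X : Set E) with hY
  set j := Module.finrank ℝ Y with hj
  rcases X.eq_empty_or_nonempty with hX0 | hXne
  · have hμ0 : 0 ≤ μ := le_trans (by positivity) hμ
    have : 0 ≤ Γ := h.pos.le
    have : 0 ≤ Λ := hμ0.trans hμΛ
    rw [hX0, card_empty, Nat.cast_zero]
    positivity
  have hs : (0 : ℝ) < R.card := Nat.cast_pos.2 hR.card_pos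
  have hμ0 : 0 < μ := by linarith
  have hΛ0 : 0 < Λ := by linarith
  obtain ⟨f, hfX, hf⟩ := spanner X
  -- windows
  let a : E → ℝ := fun u => ∑ i, |⟪u, f i⟫|
  have ha : ∀ u, 0 ≤ a u := fun u => sum_nonneg fun i _ => abs_nonneg _
  let lev : E → Finset ℝ := fun u =>
    (((m + 2 + 1) • B).image fun x => ⟪u, x⟫).filter fun v => -a u ≤ v ∧ v ≤ -a u + (a u + a u)
  set P := R.sigma lev with hP
  have hPcard : (P.card : ℝ) ≤ Γ ^ (m + 2 * j + 5) * Λ := by
    have hsum : ∑ u ∈ R, (cnt B u (a u) : ℝ) ≤ Γ ^ j * ((R.card : ℝ) + (j : ℝ) * Λ) := by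
      refine (sum_le_sum fun u _ => h.cnt_sum u j fun i => |⟪u, f i⟫|).trans ?_
      rw [← mul_sum, sum_add_distrib, sum_comm]
      refine mul_le_mul_of_nonneg_left (add_le_add (by simp) ?_) (pow_nonneg h.pos.le _)
      calc ∑ i, ∑ u ∈ R, (cnt B u |⟪u, f i⟫| : ℝ) ≤ ∑ _i : Fin j, Λ := sum_le_sum fun i _ => by
            have := hX _ (hfX i); simpa [wt] using this
        _ = (j : ℝ) * Λ := by simp
    have hj1 : (1 + (j : ℝ)) ≤ Γ ^ j := by
      refine le_trans ?_ (h.two_pow_le j)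
      have h' : j + 1 ≤ 2 ^ j := Nat.lt_two_pow_self
      rw [add_comm]; exact_mod_cast h'
    have h2 : 1 + Γ ≤ Γ ^ 2 := by nlinarith [h.two_le]
    rw [hP, card_sigma, Nat.cast_sum]
    calc ∑ u ∈ R, ((lev u).card : ℝ) ≤ ∑ u ∈ R, Γ ^ (m + 2) * (Γ ^ 2 * (cnt B u (a u) : ℝ)) :=
          sum_le_sum fun u _ => (h.interval (m + 2) u _ _).trans (mul_le_mul_of_nonneg_left
            ((h.cnt_add u _ _).trans (by
              rw [← one_add_mul (a := Γ)]
              exact mul_le_mul_of_nonneg_right h2 (Nat.cast_nonneg _))) (pow_nonneg h.pos.le _))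
      _ = Γ ^ (m + 4) * ∑ u ∈ R, (cnt B u (a u) : ℝ) := by
          simp only [mul_sum]; exact sum_congr rfl fun u _ => by ring
      _ ≤ Γ ^ (m + 4) * (Γ ^ j * ((1 + (j : ℝ)) * Λ)) := by
          refine mul_le_mul_of_nonneg_left (hsum.trans (mul_le_mul_of_nonneg_left ?_
            (pow_nonneg h.pos.le _))) (pow_nonneg h.pos.le _)
          linarith
      _ ≤ Γ ^ (m + 4) * (Γ ^ j * (Γ ^ j * Λ)) := by
          refine mul_le_mul_of_nonneg_left (mul_le_mul_of_nonneg_left
            (mul_le_mul_of_nonneg_right hj1 hΛ0.le) (pow_nonneg h.pos.le _)) (pow_nonneg h.pos.le _)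
      _ = Γ ^ (m + 2 * j + 4) * Λ := by ring
      _ ≤ _ := mul_le_mul_of_nonneg_right (h.mono_pow (by omega)) hΛ0.le
  have hXwin : ∀ x ∈ X, ∀ u, |⟪u, x⟫| ≤ a u := hf
  have hPne : P.Nonempty := by
    obtain ⟨u, hu⟩ := hR
    refine ⟨⟨u, 0⟩, mem_sigma.2 ⟨hu, mem_filter.2 ⟨mem_image.2 ⟨0, h.zero_mem_nsmul _,
      inner_zero_right _⟩, by linarith [ha u], by linarith [ha u]⟩⟩⟩
  let bit : (Σ _ : E, ℝ) → E → Bool := fun p x => decide (p.2 ≤ ⟪p.1, x⟫)
  set q := ⌈(P.card : ℝ) / (μ / 2) * (2 * Real.log X.card + 1)⌉₊ with hq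
  obtain ⟨g, hgP, hg⟩ := sampling P hPne X bit (μ / 2) (by linarith) q (Nat.le_ceil _)
  obtain ⟨T, hT, hTc⟩ := h.exists_cover m
  have htag : ∀ x : X, ∃ t ∈ T, x.1 - t ∈ B := fun x => by
    obtain ⟨b, hb, t, ht, e⟩ := mem_add.1 (hT (hXB x.2))
    exact ⟨t, ht, by rw [← e]; simpa using hb⟩
  choose t htT htB using htag
  let pat : E → Finset (Fin q) := fun x => univ.filter fun i => (g i).2 ≤ ⟪(g i).1, x⟫
  let key : E → Finset (Fin q) × E := fun x =>
    (pat x, if hx : x ∈ X then t ⟨x, hx⟩ else 0)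
  set Z := ball B R Y μ
  have hfib : ∀ k ∈ X.image key, (X.filter fun x => key x = k).card ≤ Z.card := by
    intro k hk
    obtain ⟨x₀, hx₀, rfl⟩ := mem_image.1 hk
    refine card_le_card_of_injOn (fun x => x - x₀) (fun x hx => ?_) (fun a _ b _ e => sub_left_injective e)
    simp only [coe_filter, Set.mem_ofPred_eq, key, Prod.mk.injEq, dif_pos hx₀] at hx
    obtain ⟨hxX, hpat, htt⟩ := hx
    rw [dif_pos hxX] at htt
    have hmem : x - x₀ ∈ 2 • B := by
      rw [two_nsmul]
      have : x - x₀ = (x - t ⟨x, hxX⟩) + -(x₀ - t ⟨x₀, hx₀⟩) := by rw [htt]; abel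
      rw [this]
      have e0 := neg_mem_neg (htB ⟨x₀, hx₀⟩)
      rw [h.neg_eq] at e0
      exact add_mem_add (htB ⟨x, hxX⟩) e0
    simp only [Z, ball, coe_filter, Set.mem_ofPred_eq]
    refine ⟨hmem, Y.sub_mem (Submodule.subset_span hxX) (Submodule.subset_span hx₀), ?_⟩
    have hsep := hg x hxX x₀ hx₀ fun i => by
      have := congrArg (fun s => i ∈ s) hpat
      simpa [bit, pat] using this
    have hcount : ∀ u ∈ R, cnt B u |⟪u, x - x₀⟫| ≤
        1 + ((lev u).filter fun v => bit ⟨u, v⟩ x ≠ bit ⟨u, v⟩ x₀).card := by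
      intro u _
      have key2 : ∀ p p' : E, p ∈ X → p' ∈ X → ⟪u, p'⟫ ≤ ⟪u, p⟫ →
          cnt B u |⟪u, p - p'⟫| ≤ 1 + ((lev u).filter fun v => bit ⟨u, v⟩ p ≠ bit ⟨u, v⟩ p').card := by
        intro p p' hp hp' hle
        refine le_trans ?_ ((card_insert_le ⟪u, p'⟫ _).trans (add_comm _ _).le)
        unfold cnt
        refine card_le_card_of_injOn (fun v => v + ⟪u, p'⟫) (fun v hv => ?_)
          (fun a _ b _ e => add_left_injective _ e)
        simp only [coe_filter, Set.mem_ofPred_eq, mem_image] at hv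
        obtain ⟨⟨w, hw, rfl⟩, hv1, hv2⟩ := hv
        rw [inner_sub_right, abs_of_nonneg (sub_nonneg.2 hle)] at hv2
        simp only [coe_insert, Set.mem_insert_iff, coe_filter, Set.mem_ofPred_eq]
        rcases eq_or_lt_of_le hv1 with h0 | h0
        · exact Or.inl (by linarith)
        refine Or.inr ⟨mem_filter.2 ⟨mem_image.2 ⟨w + p', ?_, inner_add_right _ _ _⟩, ?_, ?_⟩, ?_⟩
        · rw [show m + 2 + 1 = 2 + (m + 1) by ring, add_nsmul, two_nsmul]
          exact add_mem_add hw (hXB hp')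
        · linarith [neg_abs_le ⟪u, p'⟫, hXwin p' hp' u]
        · linarith [le_abs_self ⟪u, p⟫, hXwin p hp u]
        · have e1 : decide (⟪u, w⟫ + ⟪u, p'⟫ ≤ ⟪u, p⟫) = true := decide_eq_true (by linarith)
          have e2 : decide (⟪u, w⟫ + ⟪u, p'⟫ ≤ ⟪u, p'⟫) = false := decide_eq_false (by linarith)
          simp only [bit, e1, e2]
          decide
      rcases le_total ⟪u, x₀⟫ ⟪u, x⟫ with hle | hle
      · exact key2 x x₀ hxX hx₀ hle
      · have := key2 x₀ x hx₀ hxX hle
        rw [← abs_neg, ← inner_neg_right, neg_sub]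
        simpa only [ne_comm] using this
    have hw : (wt B R (x - x₀) : ℝ) ≤ R.card + (P.filter fun p => bit p x ≠ bit p x₀).card := by
      have e : (P.filter fun p => bit p x ≠ bit p x₀) =
          R.sigma fun u => (lev u).filter fun v => bit ⟨u, v⟩ x ≠ bit ⟨u, v⟩ x₀ := by
        ext ⟨u, v⟩; simp [hP, and_assoc]
      rw [e, card_sigma]
      have := sum_le_sum hcount
      rw [sum_add_distrib, ← card_eq_sum_ones] at this
      exact_mod_cast this
    linarith
  have hkeys : (X.image key).card ≤ (q + 1) ^ j * T.card := by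
    refine (card_le_card (t := X.image pat ×ˢ T) fun k hk => ?_).trans ?_
    · obtain ⟨x, hx, rfl⟩ := mem_image.1 hk
      simp only [key, dif_pos hx, mem_product]
      exact ⟨mem_image_of_mem pat hx, htT _⟩
    · rw [card_product]
      exact Nat.mul_le_mul_right _ (pattern_count X q (fun i => (g i).1) fun i => (g i).2)
  have hmain : (X.card : ℝ) ≤ ((q + 1 : ℕ) : ℝ) ^ j * T.card * Z.card := by
    have := (card_le_mul_card_image X Z.card hfib).trans (Nat.mul_le_mul_left _ hkeys)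
    calc (X.card : ℝ) ≤ ((Z.card * ((q + 1) ^ j * T.card) : ℕ) : ℝ) := by exact_mod_cast this
      _ = _ := by push_cast; ring
  have hqb : ((q + 1 : ℕ) : ℝ) ≤ Γ ^ (2 * m + 2 * j + 12) * (Λ / μ) := by
    have hl : 2 * Real.log X.card + 1 ≤ Γ ^ (m + 2) := by
      have h1 := Real.log_le_log (Nat.cast_pos.2 hXne.card_pos)
        (Nat.cast_le.2 (card_le_card hXB) : (X.card : ℝ) ≤ _)
      have h2 := h.log_nsmul_le m
      have h3 : 2 * Γ ^ (m + 1) ≤ Γ ^ (m + 2) := by
        rw [pow_succ' Γ (m + 1)]; exact mul_le_mul_of_nonneg_right h.two_le (pow_nonneg h.pos.le _)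
      linarith
    have hΛμ : 1 ≤ Λ / μ := (one_le_div hμ0).2 hμΛ
    have hl0 : 0 ≤ 2 * Real.log X.card + 1 := by linarith [Real.log_natCast_nonneg X.card]
    have hceil : (q : ℝ) ≤ (P.card : ℝ) / (μ / 2) * (2 * Real.log X.card + 1) + 1 :=
      (Nat.ceil_lt_add_one (mul_nonneg (by positivity) hl0)).le
    have h1 : (P.card : ℝ) / (μ / 2) * (2 * Real.log X.card + 1) ≤
        2 * (Γ ^ (m + 2 * j + 5) * (Λ / μ)) * Γ ^ (m + 2) := by
      refine mul_le_mul ?_ hl hl0 (mul_nonneg (by norm_num) (mul_nonneg (pow_nonneg h.pos.le _) (by linarith)))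
      rw [show (P.card : ℝ) / (μ / 2) = 2 * (P.card / μ) by field_simp]
      refine mul_le_mul_of_nonneg_left ?_ (by norm_num)
      rw [← mul_div_assoc]
      exact div_le_div_of_nonneg_right hPcard hμ0.le
    have h4 : (4 : ℝ) * Γ ^ (2 * m + 2 * j + 7) ≤ Γ ^ (2 * m + 2 * j + 9) := by
      rw [pow_add Γ (2 * m + 2 * j + 7) 2, mul_comm (4 : ℝ)]
      exact mul_le_mul_of_nonneg_left (by nlinarith [h.two_le]) (pow_nonneg h.pos.le _)
    have h5 : (2 : ℝ) ≤ 2 * Γ ^ (2 * m + 2 * j + 7) * (Λ / μ) := by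
      rw [mul_assoc]
      exact le_mul_of_one_le_right (by norm_num) (one_le_mul_of_one_le_of_one_le (one_le_pow₀ h.one_le) hΛμ)
    have h6 : Γ ^ (2 * m + 2 * j + 9) * (Λ / μ) ≤ Γ ^ (2 * m + 2 * j + 12) * (Λ / μ) :=
      mul_le_mul_of_nonneg_right (h.mono_pow (by omega)) (by linarith)
    have h7 := mul_le_mul_of_nonneg_right h4 (show 0 ≤ Λ / μ by linarith)
    have e : 2 * (Γ ^ (m + 2 * j + 5) * (Λ / μ)) * Γ ^ (m + 2) =
        2 * Γ ^ (2 * m + 2 * j + 7) * (Λ / μ) := by ring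
    push_cast
    linarith
  refine hmain.trans (mul_le_mul_of_nonneg_right ?_ (Nat.cast_nonneg _))
  calc ((q + 1 : ℕ) : ℝ) ^ j * T.card ≤ (Γ ^ (2 * m + 2 * j + 12) * (Λ / μ)) ^ j * Γ ^ m :=
        mul_le_mul (pow_le_pow_left₀ (Nat.cast_nonneg _) hqb j) hTc (Nat.cast_nonneg _)
          (pow_nonneg (mul_nonneg (pow_nonneg h.pos.le _) (by positivity)) _)
    _ = _ := by rw [mul_pow, ← pow_mul]; ring

end Vale.Agent.Doubling.AllDim
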