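import Vale.Agent.Doubling.AllDim.Inverse

/-!
Pinned distances for sets of small doubling in every dimension.
-/

open Finset
open scoped Pointwise RealInnerProductSpace

namespace Vale.Agent.Doubling.AllDim

set_option linter.unusedSectionVars false

variable {E : Type} [NormedAddCommGroup E] [InnerProductSpace ℝ E] [DecidableEq E]

/-- The difference set of a set of small doubling is an approximate group. -/
theorem ag_sub (P : Finset E) (hne : P.Nonempty) (K : ℝ)
    (hK : ((P + P).card : ℝ) ≤ K * P.card) :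
    AG (P - P) (4 * K ^ 5 * (1 + Real.log P.card)) ∧
      ((P - P).card : ℝ) ≤ 4 * K ^ 5 * (1 + Real.log P.card) * P.card := by
  classical
  have hn0 : (0 : ℝ) < P.card := Nat.cast_pos.2 hne.card_pos
  set K₀ : ℝ := ((P + P).card : ℝ) / P.card with hK₀
  have hK₀K : K₀ ≤ K := (div_le_iff₀ hn0).2 hK
  have hK₀1 : 1 ≤ K₀ := (one_le_div hn0).2 (Nat.cast_le.2 (card_le_card_add_right hne))
  have hK1 : 1 ≤ K := hK₀1.trans hK₀K
  have hl : 0 ≤ Real.log P.card := Real.log_natCast_nonneg _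
  set Γ : ℝ := 4 * K ^ 5 * (1 + Real.log P.card) with hΓ
  have hK5 : K ^ 5 ≤ Γ := by
    rw [hΓ]
    calc K ^ 5 = 1 * K ^ 5 * 1 := by ring
      _ ≤ _ := by gcongr <;> linarith
  have hΓl : 4 * (1 + Real.log P.card) ≤ Γ := by
    rw [hΓ]
    calc 4 * (1 + Real.log P.card) = 4 * 1 * (1 + Real.log P.card) := by ring
      _ ≤ _ := by gcongr; exact one_le_pow₀ hK1
  have key : ∀ a b : ℕ, a + b ≤ 5 →
      (((a • P - b • P).card : ℕ) : ℝ) ≤ K ^ 5 * P.card := by
    intro a b hab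
    have h := pluennecke_ruzsa_inequality_nsmul_sub_nsmul_add hne P a b
    have hn : (0 : ℚ≥0) < (P.card : ℚ≥0) := by exact_mod_cast hne.card_pos
    rw [div_pow, div_mul_eq_mul_div, le_div_iff₀ (pow_pos hn _)] at h
    have h' : (a • P - b • P).card * P.card ^ (a + b) ≤ (P + P).card ^ (a + b) * P.card := by
      exact_mod_cast h
    calc (((a • P - b • P).card : ℕ) : ℝ) ≤ K₀ ^ (a + b) * P.card := by
          rw [hK₀, div_pow, div_mul_eq_mul_div, le_div_iff₀ (pow_pos hn0 _)]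
          exact_mod_cast h'
      _ ≤ K ^ 5 * P.card := mul_le_mul_of_nonneg_right ((pow_le_pow_left₀ (by linarith) hK₀K _).trans
          (pow_le_pow_right₀ hK1 hab)) (Nat.cast_nonneg _)
  have hB2 : ((P - P).card : ℝ) ≤ K ^ 5 * P.card := by simpa using key 1 1 (by norm_num)
  refine ⟨⟨by linarith, neg_sub P P, ?_, ?_, ?_⟩,
    hB2.trans (mul_le_mul_of_nonneg_right hK5 (Nat.cast_nonneg _))⟩
  · obtain ⟨x, hx⟩ := hne
    exact mem_sub.2 ⟨x, hx, x, hx, sub_self x⟩
  · obtain ⟨T, -, hTc, hT⟩ := ruzsa_covering_add (A := (P - P) + (P - P)) (B := P) (K := K ^ 5) hne (by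
      have e : (P - P) + (P - P) + P = 3 • P - 2 • P := by
        rw [show (3 : ℕ) = 1 + 1 + 1 from rfl, add_nsmul, add_nsmul, one_nsmul,
          sub_add_sub_comm, sub_add_eq_add_sub]
      rw [e]
      exact key 3 2 (by norm_num))
    refine ⟨T, ?_, hTc.trans hK5⟩
    rw [add_comm (P - P) T]
    exact hT
  · have h1 := Real.log_le_log (Nat.cast_pos.2 (hne.sub hne).card_pos)
      (Nat.cast_le.2 card_sub_le : ((P - P).card : ℝ) ≤ ((P.card * P.card : ℕ) : ℝ))
    rw [Nat.cast_mul, Real.log_mul hn0.ne' hn0.ne'] at h1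
    linarith

/-- Orthogonal pairs in an approximate group. -/
theorem orth_count {B : Finset E} {Γ : ℝ} (h : AG B Γ) :
    (((B ×ˢ (2 • B)).filter fun z => ⟪z.1, z.2⟫ = 0).card : ℝ) ≤
      Γ * B.card + Γ ^ 2 * B.card *
        ∑ u ∈ B.erase 0, 1 / ((B.image fun z => ⟪u, z⟫).card : ℝ) := by
  classical
  have e : ((B ×ˢ (2 • B)).filter fun z => ⟪z.1, z.2⟫ = 0).card =
      ∑ u ∈ B, ((2 • B).filter fun w => ⟪u, w⟫ = 0).card := by
    simp only [card_filter, sum_product]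
  rw [e, Nat.cast_sum, ← add_sum_erase B _ h.zero_mem, mul_sum]
  refine add_le_add ?_ (sum_le_sum fun u hu => ?_)
  · have h1 := h.card_nsmul_le 1
    rw [pow_one] at h1
    exact le_trans (Nat.cast_le.2 (card_filter_le _ _)) h1
  · set V := B.image fun z => ⟪u, z⟫ with hV
    have hVne : V.Nonempty := Finset.Nonempty.image ⟨0, h.zero_mem⟩ _
    have hpick : ∀ v ∈ V, ∃ b ∈ B, ⟪u, b⟫ = v := fun v hv => mem_image.1 hv
    choose! pick hpick hpick' using hpick
    have hle : (V ×ˢ ((2 • B).filter fun w => ⟪u, w⟫ = 0)).card ≤ ((2 + 1) • B).card := by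
      refine card_le_card_of_injOn (fun z => z.2 + pick z.1) (fun z hz => ?_) ?_
      · simp only [coe_product, Set.mem_prod, mem_coe, mem_filter] at hz
        rw [succ_nsmul]
        exact add_mem_add hz.2.1 (hpick _ hz.1)
      · rintro ⟨v, b⟩ hz ⟨v', b'⟩ hz' he
        simp only [coe_product, Set.mem_prod, mem_coe, mem_filter] at hz hz' he
        have := congrArg (fun y => ⟪u, y⟫) he
        simp only [inner_add_right, hz.2.2, hz'.2.2, zero_add, hpick' _ hz.1, hpick' _ hz'.1] at this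
        subst this
        rw [add_right_cancel he]
    rw [card_product] at hle
    have h3 : (V.card : ℝ) * ((((2 • B).filter fun w => ⟪u, w⟫ = 0).card : ℕ) : ℝ) ≤ Γ ^ 2 * B.card :=
      le_trans (by exact_mod_cast hle) (h.card_nsmul_le 2)
    rw [mul_one_div, le_div_iff₀ (Nat.cast_pos.2 hVne.card_pos), mul_comm]
    exact h3

/-- Many distinct distances from every point of a set of small doubling. -/
theorem pinned (d : ℕ) (hd : 2 ≤ d) : ∃ C : ℕ, ∀ (P : Finset (EuclideanSpace ℝ (Fin d))) (K : ℝ),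
    2 ≤ P.card → ((P + P).card : ℝ) ≤ K * P.card → ∀ p ∈ P,
      (P.card : ℝ) ^ (2 / (d : ℝ)) ≤
        (C * K * (1 + Real.log P.card)) ^ C * ((P.erase p).image (dist p)).card := by
  classical
  obtain ⟨C₀, hC₀⟩ := sum_inv d hd
  refine ⟨5 * (C₀ + 9), ?_⟩
  intro P K hn hK p hp
  have hne : P.Nonempty := ⟨p, hp⟩
  have hn0 : (0 : ℝ) < P.card := Nat.cast_pos.2 hne.card_pos
  obtain ⟨h, hBn⟩ := ag_sub P hne K hK
  set Γ : ℝ := 4 * K ^ 5 * (1 + Real.log P.card) with hΓ
  set n : ℝ := (P.card : ℝ) with hnn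
  set B := P - P with hB
  have hG := h.pos
  have hG1 := h.one_le
  have hn1 : 1 ≤ n := Nat.one_le_cast.2 hne.card_pos
  set x : ℝ := (Γ * n) ^ ((d : ℝ)⁻¹) with hx
  have hΓn : 1 ≤ Γ * n := one_le_mul_of_one_le_of_one_le hG1 hn1
  have hxd : x ^ d = Γ * n := Real.rpow_inv_natCast_pow (by linarith) (by omega)
  have hx1 : 1 ≤ x := Real.one_le_rpow hΓn (by positivity)
  have hS := hC₀ (EuclideanSpace ℝ (Fin d)) finrank_euclideanSpace_fin B Γ x h hx1 (hxd ▸ hBn)
  set R := P.erase p with hR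
  set D := (R.image (dist p)).card with hD
  set F := (R ×ˢ R).filter fun z => dist p z.1 = dist p z.2 with hF
  have hFO : F.card ≤ ((B ×ˢ (2 • B)).filter fun z => ⟪z.1, z.2⟫ = 0).card := by
    refine card_le_card_of_injOn (fun z => (z.1 - z.2, (z.1 - p) + (z.2 - p))) ?_ ?_
    · intro z hz
      simp only [hF, hR, mem_coe, mem_filter, mem_product, mem_erase] at hz
      simp only [mem_coe, mem_filter, mem_product]
      refine ⟨⟨sub_mem_sub hz.1.1.2 hz.1.2.2, ?_⟩, ?_⟩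
      · rw [two_nsmul]; exact add_mem_add (sub_mem_sub hz.1.1.2 hp) (sub_mem_sub hz.1.2.2 hp)
      · have h2 := hz.2
        rw [dist_comm p, dist_comm p, dist_eq_norm, dist_eq_norm] at h2
        rw [real_inner_comm, show z.1 - z.2 = (z.1 - p) - (z.2 - p) by abel]
        exact (real_inner_add_sub_eq_zero_iff _ _).2 h2
    · intro z _ z' _ e
      simp only [Prod.mk.injEq] at e
      have e1 : (2 : ℝ) • z.1 = (2 : ℝ) • z'.1 := by
        have := congrArg₂ (· + ·) e.1 e.2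
        rw [two_smul, two_smul]
        calc z.1 + z.1 = (z.1 - z.2) + ((z.1 - p) + (z.2 - p)) + (p + p) := by abel
          _ = (z'.1 - z'.2) + ((z'.1 - p) + (z'.2 - p)) + (p + p) := by rw [e.1, e.2]
          _ = z'.1 + z'.1 := by abel
      have e2 : z.1 = z'.1 := smul_right_injective _ (two_ne_zero : (2 : ℝ) ≠ 0) e1
      exact Prod.ext e2 (by rw [← sub_sub_cancel z.1 z.2, e.1, e2, sub_sub_cancel])
  have hfib : F.card = ∑ t ∈ R.image (dist p), (R.filter fun q => dist p q = t).card ^ 2 := by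
    rw [card_eq_sum_card_fiberwise (f := fun z => dist p z.1) (t := R.image (dist p)) fun z hz => by
      simp only [hF, mem_coe, mem_filter, mem_product] at hz
      exact mem_image_of_mem _ hz.1.1]
    refine sum_congr rfl fun t _ => ?_
    rw [sq, ← card_product]
    refine congrArg card ?_
    ext z
    simp only [hF, mem_filter, mem_product]
    constructor
    · rintro ⟨⟨⟨h1, h2⟩, h3⟩, h4⟩
      exact ⟨⟨h1, h4⟩, h2, h3.symm.trans h4⟩
    · rintro ⟨⟨h1, h4⟩, h2, h5⟩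
      exact ⟨⟨⟨h1, h2⟩, h4.trans h5.symm⟩, h4⟩
  have hcs : R.card ^ 2 ≤ D * F.card := by
    rw [hfib, card_eq_sum_card_image (dist p) R]
    exact sq_sum_le_card_mul_sum_sq
  have hcsR : (R.card : ℝ) ^ 2 ≤ (D : ℝ) * F.card := by exact_mod_cast hcs
  have hRn : n ≤ 2 * (R.card : ℝ) := by
    have : P.card ≤ 2 * R.card := by rw [hR, card_erase_of_mem hp]; omega
    rw [hnn]; exact_mod_cast this
  have hFb : (F.card : ℝ) ≤ Γ ^ (C₀ + 3) * B.card * x ^ (d - 2) := by
    refine (Nat.cast_le.2 hFO).trans ((orth_count h).trans ?_)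
    have h1 : Γ * B.card ≤ Γ ^ (C₀ + 2) * B.card * x ^ (d - 2) :=
      le_trans (mul_le_mul_of_nonneg_right (le_self_pow₀ hG1 (by omega)) (Nat.cast_nonneg _))
        (le_mul_of_one_le_right (by positivity) (one_le_pow₀ hx1))
    have h2 : Γ ^ 2 * B.card * ∑ u ∈ B.erase 0, 1 / ((B.image fun z => ⟪u, z⟫).card : ℝ) ≤
        Γ ^ (C₀ + 2) * B.card * x ^ (d - 2) :=
      (mul_le_mul_of_nonneg_left hS (by positivity)).trans (le_of_eq (by ring))
    have h3 : 2 * (Γ ^ (C₀ + 2) * B.card * x ^ (d - 2)) ≤ Γ ^ (C₀ + 3) * B.card * x ^ (d - 2) := by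
      rw [pow_succ' Γ (C₀ + 2), mul_assoc Γ, mul_assoc Γ]
      exact mul_le_mul_of_nonneg_right h.two_le (by positivity)
    linarith
  have hmain : n ^ 2 * x ^ 2 ≤ Γ ^ (C₀ + 7) * n ^ 2 * D :=
    calc n ^ 2 * x ^ 2 ≤ (2 * (R.card : ℝ)) ^ 2 * x ^ 2 :=
          mul_le_mul_of_nonneg_right (pow_le_pow_left₀ hn0.le hRn 2) (sq_nonneg _)
      _ ≤ 4 * ((D : ℝ) * (Γ ^ (C₀ + 3) * B.card * x ^ (d - 2))) * x ^ 2 := by
          rw [mul_pow]
          refine mul_le_mul_of_nonneg_right ?_ (sq_nonneg _)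
          norm_num
          exact hcsR.trans (mul_le_mul_of_nonneg_left hFb (Nat.cast_nonneg _))
      _ = 4 * (D : ℝ) * Γ ^ (C₀ + 3) * B.card * x ^ d := by
          rw [show x ^ d = x ^ (d - 2) * x ^ 2 by rw [← pow_add, show d - 2 + 2 = d by omega]]; ring
      _ ≤ Γ ^ 2 * (D : ℝ) * Γ ^ (C₀ + 3) * (Γ * n) * (Γ * n) := by
          rw [hxd]
          gcongr
          nlinarith [h.two_le]
      _ = _ := by ring
  have hx2 : n ^ (2 / (d : ℝ)) ≤ x ^ 2 := by
    calc n ^ (2 / (d : ℝ)) = (n ^ ((d : ℝ)⁻¹)) ^ 2 := by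
          rw [← Real.rpow_natCast, ← Real.rpow_mul hn0.le]; congr 1; push_cast; ring
      _ ≤ x ^ 2 := pow_le_pow_left₀ (by positivity) (Real.rpow_le_rpow hn0.le
          (le_mul_of_one_le_left hn0.le hG1) (by positivity)) 2
  have hG5 : Γ ≤ (((5 * (C₀ + 9) : ℕ) : ℝ) * K * (1 + Real.log P.card)) ^ 5 := by
    have hK0 : 0 ≤ K := nonneg_of_mul_nonneg_left (le_trans (Nat.cast_nonneg _) hK) hn0
    have hl : 0 ≤ Real.log P.card := Real.log_natCast_nonneg _
    have h1 : (4 : ℝ) ≤ (((5 * (C₀ + 9) : ℕ) : ℝ)) ^ 5 := by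
      refine le_trans ?_ (le_self_pow₀ ?_ (by norm_num)) <;>
        (have : (0 : ℝ) ≤ C₀ := Nat.cast_nonneg _; push_cast; linarith)
    rw [mul_pow, mul_pow, hΓ]
    refine mul_le_mul (mul_le_mul_of_nonneg_right h1 (pow_nonneg hK0 5)) ?_ (by linarith) (by positivity)
    exact le_self_pow₀ (by linarith) (by norm_num)
  have hb : 0 ≤ ((5 * (C₀ + 9) : ℕ) : ℝ) * K * (1 + Real.log P.card) := by
    have hK0 : 0 ≤ K := nonneg_of_mul_nonneg_left (le_trans (Nat.cast_nonneg _) hK) hn0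
    have hl : 0 ≤ Real.log P.card := Real.log_natCast_nonneg _
    positivity
  calc n ^ (2 / (d : ℝ)) ≤ Γ ^ (C₀ + 7) * D := by
        refine hx2.trans (le_of_mul_le_mul_left ?_ (show (0 : ℝ) < n ^ 2 by positivity))
        linarith
    _ ≤ Γ ^ (C₀ + 9) * D := mul_le_mul_of_nonneg_right (h.mono_pow (by omega)) (Nat.cast_nonneg _)
    _ ≤ ((((5 * (C₀ + 9) : ℕ) : ℝ) * K * (1 + Real.log P.card)) ^ 5) ^ (C₀ + 9) * D :=
        mul_le_mul_of_nonneg_right (pow_le_pow_left₀ hG.le hG5 _) (Nat.cast_nonneg _)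
    _ = _ := by rw [← pow_mul]

end Vale.Agent.Doubling.AllDim
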