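import Vale.Agent.Doubling.AllDim.Pack

/-!
Lines through the origin rich in a finite set, collisions of linear forms on small elements, and
the key lemma: one hyperplane catches many forms of small image.
-/

open Finset
open scoped Pointwise RealInnerProductSpace

namespace Vale.Agent.Doubling.AllDim

set_option linter.unusedSectionVars false

variable {E : Type*} [NormedAddCommGroup E] [InnerProductSpace ℝ E] [DecidableEq E]

/-- A vector orthogonal to none of finitely many nonzero vectors. -/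
theorem exists_generic (S : Finset E) (hS : (0 : E) ∉ S) : ∃ w : E, ∀ z ∈ S, ⟪w, z⟫ ≠ 0 := by
  classical
  induction S using Finset.induction with
  | empty => exact ⟨0, by simp⟩
  | insert a S _ ih =>
    simp only [mem_insert, not_or] at hS
    obtain ⟨w, hw⟩ := ih hS.2
    obtain ⟨t, ht⟩ := Infinite.exists_notMem_finset
      ((insert a S).image fun z => -⟪w, z⟫ / ⟪a, z⟫)
    refine ⟨w + t • a, fun z hz h0 => ?_⟩
    rw [inner_add_left, real_inner_smul_left] at h0
    by_cases haz : ⟪a, z⟫ = 0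
    · rcases mem_insert.1 hz with rfl | hz
      · exact hS.1 (inner_self_eq_zero.1 haz).symm
      · exact hw z hz (by simpa [haz] using h0)
    · exact ht (mem_image.2 ⟨z, hz, by rw [div_eq_iff haz]; linarith⟩)

/-- The point where the line through `z` meets `⟪w, ·⟫ = 1`. -/
noncomputable def key (w z : E) : E := (⟪w, z⟫)⁻¹ • z

theorem smul_key {w z : E} (h : ⟪w, z⟫ ≠ 0) : ⟪w, z⟫ • key w z = z := by
  rw [key, smul_smul, mul_inv_cancel₀ h, one_smul]

theorem key_smul {w z : E} {c : ℝ} (hc : c ≠ 0) : key w (c • z) = key w z := by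
  rw [key, key, real_inner_smul_right, smul_smul, mul_inv, mul_right_comm, inv_mul_cancel₀ hc,
    one_mul]

/-- Sums from consecutive rich lines in a slope order are distinct. -/
theorem pairs (D : Finset E) (w : E) (hpos : ∀ z ∈ D, 0 < ⟪w, z⟫) (S : Finset E) (p : ℕ)
    (hS : ∀ a ∈ S, p ≤ (D.filter fun z => key w z = a).card) :
    (S.card - 1) * p ^ 2 ≤ (D + D).card := by
  classical
  rcases S.eq_empty_or_nonempty with rfl | hSne
  · simp
  obtain ⟨e, he⟩ := exists_generic ((S ×ˢ S).image (fun z => z.1 - z.2) |>.erase 0)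
    (notMem_erase _ _)
  set ψ : E → ℝ := fun a => ⟪e, a⟫
  have hinj : Set.InjOn ψ S := fun a ha b hb hab => by
    by_contra hne
    refine he (a - b) (mem_erase.2 ⟨sub_ne_zero.2 hne, mem_image.2 ⟨(a, b), mem_product.2 ⟨ha, hb⟩, rfl⟩⟩) ?_
    simp only [ψ] at hab
    simp [inner_sub_right, hab]
  let F : E → Finset E := fun a => D.filter fun z => key w z = a
  have hdec : ∀ a, ∀ z ∈ F a, 0 < ⟪w, z⟫ ∧ ψ z = ⟪w, z⟫ * ψ a ∧ z = ⟪w, z⟫ • a := by
    intro a z hz
    obtain ⟨hzD, rfl⟩ := mem_filter.1 hz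
    refine ⟨hpos z hzD, ?_, (smul_key (hpos z hzD).ne').symm⟩
    conv_lhs => rw [← smul_key (hpos z hzD).ne']
    exact real_inner_smul_right _ _ _
  let up : E → Finset E := fun a => S.filter fun b => ψ a < ψ b
  let S' := S.filter fun a => (up a).Nonempty
  have hnext : ∀ a : E, (up a).Nonempty → ∃ b ∈ up a, ∀ c ∈ up a, ψ b ≤ ψ c := fun a ha =>
    exists_min_image _ _ ha
  choose! nx hnx hnx' using hnext
  obtain ⟨top, htop, htop'⟩ := exists_max_image S ψ hSne
  have hS' : S.card - 1 ≤ S'.card := by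
    rw [← card_erase_of_mem htop]
    refine card_le_card fun a ha => mem_filter.2 ⟨(mem_erase.1 ha).2, top, mem_filter.2 ⟨htop, ?_⟩⟩
    exact lt_of_le_of_ne (htop' a (mem_erase.1 ha).2)
      fun he => (mem_erase.1 ha).1 (hinj (mem_erase.1 ha).2 htop he)
  have hbetween : ∀ a ∈ S', ∀ x ∈ F a, ∀ y ∈ F (nx a),
      0 < ⟪w, x + y⟫ ∧ ψ a * ⟪w, x + y⟫ < ψ (x + y) ∧ ψ (x + y) < ψ (nx a) * ⟪w, x + y⟫ := by
    intro a ha x hx y hy
    obtain ⟨h1, h2, -⟩ := hdec a x hx
    obtain ⟨h1', h2', -⟩ := hdec _ y hy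
    have hlt : ψ a < ψ (nx a) := (mem_filter.1 (hnx a (mem_filter.1 ha).2)).2
    simp only [ψ, inner_add_right] at h2 h2' hlt ⊢
    refine ⟨by linarith, ?_, ?_⟩
    · nlinarith
    · nlinarith
  calc (S.card - 1) * p ^ 2 ≤ S'.card * p ^ 2 := Nat.mul_le_mul_right _ hS'
    _ ≤ ∑ a ∈ S', (F a ×ˢ F (nx a)).card := by
        rw [← smul_eq_mul, ← sum_const]
        refine sum_le_sum fun a ha => ?_
        rw [card_product, sq]
        exact Nat.mul_le_mul (hS a (mem_filter.1 ha).1)
          (hS _ (mem_filter.1 (hnx a (mem_filter.1 ha).2)).1)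
    _ = (S'.sigma fun a => F a ×ˢ F (nx a)).card := (card_sigma _ _).symm
    _ ≤ (D + D).card := by
        refine card_le_card_of_injOn (fun z => z.2.1 + z.2.2) (fun z hz => ?_) ?_
        · simp only [coe_sigma, Set.mem_sigma_iff, coe_product, Set.mem_prod, mem_coe] at hz
          exact add_mem_add (mem_filter.1 hz.2.1).1 (mem_filter.1 hz.2.2).1
        · rintro ⟨a, x, y⟩ hz ⟨a', x', y'⟩ hz' heq
          simp only [coe_sigma, Set.mem_sigma_iff, coe_product, Set.mem_prod, mem_coe] at hz hz' heq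
          obtain ⟨g1, g2, g3⟩ := hbetween a hz.1 x hz.2.1 y hz.2.2
          obtain ⟨g1', g2', g3'⟩ := hbetween a' hz'.1 x' hz'.2.1 y' hz'.2.2
          rw [← heq] at g1' g2' g3'
          have haa : a = a' := by
            by_contra hne
            have hne' : ψ a ≠ ψ a' := fun h =>
              hne (hinj (mem_filter.1 hz.1).1 (mem_filter.1 hz'.1).1 h)
            rcases lt_or_gt_of_ne hne' with h | h
            · have := hnx' a (mem_filter.1 hz.1).2 a' (mem_filter.2 ⟨(mem_filter.1 hz'.1).1, h⟩)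
              have := mul_le_mul_of_nonneg_right this g1.le
              linarith
            · have := hnx' a' (mem_filter.1 hz'.1).2 a (mem_filter.2 ⟨(mem_filter.1 hz.1).1, h⟩)
              have := mul_le_mul_of_nonneg_right this g1.le
              linarith
          subst haa
          obtain ⟨-, e1, f1⟩ := hdec a x hz.2.1
          obtain ⟨-, e1', f1'⟩ := hdec a x' hz'.2.1
          obtain ⟨-, e2, f2⟩ := hdec _ y hz.2.2
          obtain ⟨-, e2', f2'⟩ := hdec _ y' hz'.2.2
          have hlt : ψ a < ψ (nx a) := (mem_filter.1 (hnx a (mem_filter.1 hz.1).2)).2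
          have s1 := congrArg ψ heq
          have s2 := congrArg (fun v => ⟪w, v⟫) heq
          simp only [ψ, inner_add_right] at s1 s2 e1 e1' e2 e2' hlt
          rw [e1, e1', e2, e2'] at s1
          have hyy : ⟪w, y⟫ = ⟪w, y'⟫ := by
            have : (⟪w, y⟫ - ⟪w, y'⟫) * (⟪e, nx a⟫ - ⟪e, a⟫) = 0 := by linear_combination s1 - ⟪e, a⟫ * s2
            rcases mul_eq_zero.1 this with h | h
            · linarith
            · linarith
          have hy' : y = y' := by rw [f2, f2', hyy]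
          have hx' : x = x' := by rw [hy'] at heq; exact add_right_cancel heq
          rw [hx', hy']

variable {B : Finset E} {Γ : ℝ}

theorem AG.neg_nsmul (h : AG B Γ) (m : ℕ) : -(m • B) = m • B := by
  induction m with
  | zero => simp
  | succ m ih => rw [succ_nsmul, neg_add, ih, h.neg_eq]

/-- Small elements collide under the linear forms. -/
theorem AG.collide (h : AG B Γ) (R D₀ : Finset E) (L : ℝ) (hD : D₀ ⊆ B + B) (hne : D₀.Nonempty)
    (hR : R.Nonempty) (hL : ∀ z ∈ D₀, (wt B R z : ℝ) ≤ L) :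
    (D₀.card : ℝ) * (R.card : ℝ) ^ 2 ≤ 16 * L *
      ((R.card : ℝ) + ∑ z ∈ (D₀ - D₀).erase 0, ((R.filter fun u => ⟪u, z⟫ = 0).card : ℝ)) := by
  classical
  set n : ℝ := (D₀.card : ℝ)
  have hn : 0 < n := Nat.cast_pos.2 hne.card_pos
  set D := (D₀ - D₀).erase 0
  let a : E → ℝ := fun u => (∑ z ∈ D₀, (cnt B u |⟪u, z⟫| : ℝ)) / n
  have ha1 : ∀ u, 1 ≤ a u := fun u => by
    rw [le_div_iff₀ hn, one_mul]
    calc n = ∑ _z ∈ D₀, (1 : ℝ) := by simp [n]
      _ ≤ _ := sum_le_sum fun z _ => Nat.one_le_cast.2 (h.one_le_cnt u (abs_nonneg _))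
  have hsuma : ∑ u ∈ R, a u ≤ L := by
    rw [← sum_div, div_le_iff₀ hn, sum_comm]
    calc _ ≤ ∑ _z ∈ D₀, L := sum_le_sum fun z hz => by have := hL z hz; simpa [wt] using this
      _ = L * n := by simp [n, mul_comm]
  have hper : ∀ u ∈ R, n ^ 2 / (16 * a u) ≤
      (((D₀ ×ˢ D₀).filter fun z => ⟪u, z.1⟫ = ⟪u, z.2⟫).card : ℝ) := by
    intro u _
    have hau := ha1 u
    set X := D₀.filter fun z => (cnt B u |⟪u, z⟫| : ℝ) ≤ 2 * a u
    have hX : n ≤ 2 * (X.card : ℝ) := by
      have h1 : ∑ z ∈ D₀.filter (fun z => ¬ (cnt B u |⟪u, z⟫| : ℝ) ≤ 2 * a u), 2 * a u ≤ a u * n := by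
        calc _ ≤ ∑ z ∈ D₀.filter (fun z => ¬ (cnt B u |⟪u, z⟫| : ℝ) ≤ 2 * a u), (cnt B u |⟪u, z⟫| : ℝ) :=
              sum_le_sum fun z hz => (not_le.1 (mem_filter.1 hz).2).le
          _ ≤ ∑ z ∈ D₀, (cnt B u |⟪u, z⟫| : ℝ) :=
              sum_le_sum_of_subset_of_nonneg (filter_subset _ _) fun _ _ _ => Nat.cast_nonneg _
          _ = _ := by rw [div_mul_cancel₀ _ hn.ne']
      rw [sum_const, nsmul_eq_mul] at h1
      have hsplit := card_filter_add_card_filter_not (s := D₀) (fun z => (cnt B u |⟪u, z⟫| : ℝ) ≤ 2 * a u)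
      have h2 : (X.card : ℝ) + ((D₀.filter fun z => ¬ (cnt B u |⟪u, z⟫| : ℝ) ≤ 2 * a u).card : ℝ) = n := by
        simp only [n, X]; exact_mod_cast hsplit
      have h3 : (2 * ((D₀.filter fun z => ¬ (cnt B u |⟪u, z⟫| : ℝ) ≤ 2 * a u).card : ℝ) - n) * a u ≤ 0 := by
        linarith
      have h4 := nonpos_of_mul_nonpos_left h3 (by linarith)
      linarith
    set V := X.image fun z => ⟪u, z⟫
    have hV : (V.card : ℝ) ≤ 4 * a u := by
      have half : ∀ σ : ℝ, (σ = 1 ∨ σ = -1) →
          ((V.filter fun v => 0 ≤ σ * v).card : ℝ) ≤ 2 * a u := by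
        intro σ hσ
        rcases (V.filter fun v => 0 ≤ σ * v).eq_empty_or_nonempty with h0 | h0
        · rw [h0, card_empty, Nat.cast_zero]; linarith
        obtain ⟨v, hv, hmax⟩ := exists_max_image _ (fun v => σ * v) h0
        obtain ⟨hvV, hv0⟩ := mem_filter.1 hv
        obtain ⟨z, hz, rfl⟩ := mem_image.1 hvV
        have habs : |⟪u, z⟫| = σ * ⟪u, z⟫ := by
          rcases hσ with rfl | rfl
          · rw [one_mul] at hv0 ⊢; exact abs_of_nonneg hv0
          · rw [neg_one_mul] at hv0 ⊢; exact abs_of_nonpos (by linarith)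
        refine le_trans (Nat.cast_le.2 ?_) (mem_filter.1 hz).2
        rw [habs]
        unfold cnt
        refine card_le_card_of_injOn (fun v => σ * v) (fun w hw => ?_) (fun a _ b _ e => ?_)
        · obtain ⟨hwV, hw0⟩ := mem_filter.1 hw
          obtain ⟨z', hz', rfl⟩ := mem_image.1 hwV
          refine mem_filter.2 ⟨?_, hw0, hmax _ hw⟩
          rcases hσ with rfl | rfl
          · exact mem_image.2 ⟨z', hD (mem_filter.1 hz').1, (one_mul _).symm⟩
          · refine mem_image.2 ⟨-z', ?_, by simp [inner_neg_right]⟩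
            rw [← two_nsmul, ← h.neg_nsmul 2, two_nsmul]
            exact neg_mem_neg (hD (mem_filter.1 hz').1)
        · exact mul_left_cancel₀ (by rcases hσ with rfl | rfl <;> norm_num) e
      have hsub : V ⊆ V.filter (fun v => 0 ≤ (1 : ℝ) * v) ∪ V.filter (fun v => 0 ≤ (-1 : ℝ) * v) := by
        intro v hv
        simp only [mem_union, mem_filter, one_mul, neg_one_mul]
        rcases le_total 0 v with h' | h'
        · exact Or.inl ⟨hv, h'⟩
        · exact Or.inr ⟨hv, by linarith⟩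
      have := Nat.cast_le (α := ℝ).2 ((card_le_card hsub).trans (card_union_le _ _))
      push_cast at this
      linarith [half 1 (Or.inl rfl), half (-1) (Or.inr rfl)]
    have hcs : (X.card : ℝ) ^ 2 ≤ (V.card : ℝ) * (((X ×ˢ X).filter fun z => ⟪u, z.1⟫ = ⟪u, z.2⟫).card : ℝ) := by
      have e : ((X ×ˢ X).filter fun z => ⟪u, z.1⟫ = ⟪u, z.2⟫).card =
          ∑ v ∈ V, (X.filter fun x => ⟪u, x⟫ = v).card ^ 2 := by
        rw [card_eq_sum_card_fiberwise (f := fun z => ⟪u, z.1⟫) (t := V) fun z hz =>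
          mem_image_of_mem _ (mem_product.1 (mem_filter.1 hz).1).1]
        refine sum_congr rfl fun t _ => ?_
        rw [sq, ← card_product]
        refine congrArg card ?_
        ext z
        simp only [mem_filter, mem_product]
        constructor
        · rintro ⟨⟨⟨h1, h2⟩, h3⟩, h4⟩
          exact ⟨⟨h1, h4⟩, h2, h3.symm.trans h4⟩
        · rintro ⟨⟨h1, h4⟩, h2, h5⟩
          exact ⟨⟨⟨h1, h2⟩, h4.trans h5.symm⟩, h4⟩
      have := sq_sum_le_card_mul_sum_sq (s := V) (f := fun v => (X.filter fun x => ⟪u, x⟫ = v).card)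
      rw [← card_eq_sum_card_image, ← e] at this
      exact_mod_cast this
    have hsubX : (((X ×ˢ X).filter fun z => ⟪u, z.1⟫ = ⟪u, z.2⟫).card : ℝ) ≤
        (((D₀ ×ˢ D₀).filter fun z => ⟪u, z.1⟫ = ⟪u, z.2⟫).card : ℝ) :=
      Nat.cast_le.2 (card_le_card (filter_subset_filter _
        (product_subset_product (filter_subset _ _) (filter_subset _ _))))
    rw [div_le_iff₀ (by linarith)]
    calc n ^ 2 ≤ (2 * (X.card : ℝ)) ^ 2 := pow_le_pow_left₀ hn.le hX 2
      _ ≤ 4 * (4 * a u * (((X ×ˢ X).filter fun z => ⟪u, z.1⟫ = ⟪u, z.2⟫).card : ℝ)) := by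
          rw [mul_pow]
          nlinarith [mul_le_mul_of_nonneg_right hV (Nat.cast_nonneg
            ((X ×ˢ X).filter fun z => ⟪u, z.1⟫ = ⟪u, z.2⟫).card)]
      _ ≤ _ := by nlinarith
  have hpairs : ∀ u ∈ R, (((D₀ ×ˢ D₀).filter fun z => ⟪u, z.1⟫ = ⟪u, z.2⟫).card : ℝ) ≤
      n * (1 + ((D.filter fun z => ⟪u, z⟫ = 0).card : ℝ)) := by
    intro u _
    have : ((D₀ ×ˢ D₀).filter fun z => ⟪u, z.1⟫ = ⟪u, z.2⟫).card ≤
        (D₀ ×ˢ insert 0 (D.filter fun z => ⟪u, z⟫ = 0)).card := by
      refine card_le_card_of_injOn (fun z => (z.1, z.1 - z.2)) (fun z hz => ?_)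
        (fun z _ z' _ e => ?_)
      · simp only [coe_filter, Set.mem_ofPred_eq, mem_product] at hz
        refine mem_product.2 ⟨hz.1.1, ?_⟩
        by_cases h0 : z.1 - z.2 = 0
        · simp [h0]
        · exact mem_insert_of_mem (mem_filter.2 ⟨mem_erase.2 ⟨h0, sub_mem_sub hz.1.1 hz.1.2⟩,
            by rw [inner_sub_right, hz.2, sub_self]⟩)
      · simp only [Prod.mk.injEq] at e
        exact Prod.ext e.1 (by rw [← sub_sub_cancel z.1 z.2, e.2, e.1, sub_sub_cancel])
    rw [card_product] at this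
    calc _ ≤ ((D₀.card * (insert 0 (D.filter fun z => ⟪u, z⟫ = 0)).card : ℕ) : ℝ) :=
          Nat.cast_le.2 this
      _ ≤ _ := by
          push_cast
          refine mul_le_mul_of_nonneg_left ?_ hn.le
          rw [add_comm]
          exact_mod_cast card_insert_le _ _
  have hswap : ∑ u ∈ R, ((D.filter fun z => ⟪u, z⟫ = 0).card : ℝ) =
      ∑ z ∈ D, ((R.filter fun u => ⟪u, z⟫ = 0).card : ℝ) := by
    simp only [card_filter, Nat.cast_sum]
    exact sum_comm
  have hEngel : n ^ 2 * (R.card : ℝ) ^ 2 / (16 * L) ≤ ∑ u ∈ R, n ^ 2 / (16 * a u) := by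
    have h1 := sq_sum_div_le_sum_sq_div R (fun _ => n) (g := fun u => 16 * a u)
      fun u _ => by linarith [ha1 u]
    rw [sum_const, nsmul_eq_mul, ← mul_sum] at h1
    refine le_trans ?_ h1
    have hpos : 0 < ∑ u ∈ R, a u := sum_pos (fun u _ => by linarith [ha1 u]) hR
    rw [show n ^ 2 * (R.card : ℝ) ^ 2 = ((R.card : ℝ) * n) ^ 2 by ring]
    exact div_le_div_of_nonneg_left (sq_nonneg _) (by linarith) (by linarith)
  have hL0 : 0 < 16 * L := by
    have hpos : 0 < ∑ u ∈ R, a u := sum_pos (fun u _ => by linarith [ha1 u]) hR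
    linarith
  have hfin := hEngel.trans ((sum_le_sum hper).trans (sum_le_sum hpairs))
  rw [← mul_sum, sum_add_distrib, hswap, sum_const, nsmul_eq_mul, mul_one, div_le_iff₀ hL0] at hfin
  refine le_of_mul_le_mul_left ?_ hn
  linarith

end Vale.Agent.Doubling.AllDim
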